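import Vale.Agent.P092.H714.StF

/-!
P092 (helper971), project VR: the class of the final statement.  Only definitions.
-/

open Vale.Agent.P092.H515.St Vale.Agent.P092.SR.St

namespace Vale.Agent.P092.VR.St

/-- `E` has an open normal subgroup of finite index which is isomorphic to a group of the class
`Cls`. -/
def ClsV (E : Type) [Group E] [TopologicalSpace E] : Prop :=
  IsTopologicalGroup E ∧ ∃ (M : Type) (_ : Group M) (_ : TopologicalSpace M) (φ : M →* E),
    PC.StF.Cls M ∧ Continuous φ ∧ Function.Injective φ ∧ IsOpenMap φ ∧ φ.range.Normal ∧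
      φ.range.FiniteIndex

/-- `Γ` is an ICC lattice in a product of finitely many groups of the class `ClsV`, whose projection
to every factor is dense. -/
def ClassLatticeV (Γ : Type) [Group Γ] : Prop :=
  ICC Γ ∧ ∃ (I : Type) (_ : Fintype I) (E : I → Type) (_ : ∀ j, Group (E j))
    (_ : ∀ j, TopologicalSpace (E j)) (i : Γ →* ∀ j, E j), (∀ j, ClsV (E j)) ∧ DenseLattice i

end Vale.Agent.P092.VR.St
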