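import Vale.Agent.P092.VR.Defs

/-!
P092 (helper971), project VR: overgroups of finite index of a factor.  Only definitions.
-/

set_option linter.all false

open MeasureTheory Filter Topology

namespace Vale.Agent.P092.VR

open Vale.Agent.P092.QC (QF)

/-- `φ : M → E` makes `E` an overgroup of finite index of the factor `M`. -/
structure Ov {M E : Type} [Group M] [TopologicalSpace M] [Group E] [TopologicalSpace E]
    (φ : M →* E) (r : ℕ) : Prop where
  top : IsTopologicalGroup E
  qf : QF M r
  cont : Continuous φ
  inj : Function.Injective φ
  opn : IsOpenMap φ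
  normal : φ.range.Normal
  fin : φ.range.FiniteIndex

/-- `R` is the radical of the overgroup. -/
structure IsRad {M E : Type} [Group M] [Group E] (φ : M →* E) (R : Subgroup E) : Prop where
  normal : R.Normal
  fin : Finite R
  comap : R.comap φ = Subgroup.center M
  cent : ∀ g : E, (∀ n ∈ φ.range, g * n * g⁻¹ * n⁻¹ ∈ R) → g ∈ R

end Vale.Agent.P092.VR
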