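import Vale.Agent.P092.VR.St
import Vale.Agent.P092.VR.Ov
import Vale.Agent.P092.H714.FinF

/-!
P092 (helper971), project VR: the groups of the class are overgroups of factors.
-/

set_option linter.all false

open Filter Topology

namespace Vale.Agent.P092.VR

open Vale.Agent.P092.VR.St (ClsV ClassLatticeV)

/-- An open normal subgroup of finite index. -/
theorem ov_subtype {E : Type} [Group E] [TopologicalSpace E] (ht : IsTopologicalGroup E)
    {N : Subgroup E} (hn : N.Normal) (hf : N.FiniteIndex) (ho : IsOpen (N : Set E)) {r : ℕ}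
    (hq : QC.QF N r) : Ov N.subtype r where
  top := ht
  qf := hq
  cont := continuous_subtype_val
  inj := N.subtype_injective
  opn := ho.isOpenMap_subtype_val
  normal := by rw [N.range_subtype]; exact hn
  fin := by rw [N.range_subtype]; exact hf

/-- **The groups of the class are overgroups of factors.** -/
theorem clsV_ov {E : Type} [Group E] [TopologicalSpace E] (h : ClsV E) :
    ∃ (M : Type) (_ : Group M) (_ : TopologicalSpace M) (φ : M →* E) (r : ℕ), Ov φ r := by
  obtain ⟨ht, M, _, _, φ, hc, h1, h2, h3, h4, h5⟩ := h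
  obtain ⟨r, hr⟩ := H714.ClF.clsF_qf hc
  exact ⟨M, _, _, φ, r, ht, hr, h1, h2, h3, h4, h5⟩

end Vale.Agent.P092.VR
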