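import Vale.Agent.P092.QC.Final
import Vale.Agent.P092.H333.ErgQ
import Vale.Agent.P092.H628.TorDefs

/-!
P092 (helper971), project VR: overgroups of finite index of the factors of project Q (all isogeny
types).  Only definitions.
-/

set_option linter.all false

open MeasureTheory Filter Topology

namespace Vale.Agent.P092.VR

open Vale.Agent.P092.QC (QF)

/-- What the abstract theorem of project Q uses of a place. -/
structure FacV (G : Type) [Group G] [TopologicalSpace G] : Prop where
  pair : ∀ S T : Set G, (∀ s, ∀ t ∈ S, s * t * s⁻¹ ∈ S) → (∀ s, ∀ t ∈ T, s * t * s⁻¹ ∈ T) →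
    (∀ s ∈ S, ∀ t ∈ T, s * t = t * s) → S ⊆ {1} ∨ T ⊆ {1}
  big : ∀ N : Subgroup G, N.Normal → N ≠ ⊥ → IsOpen (N : Set G) ∧ ¬ IsCompact (N : Set G)
  null : ∀ [MeasurableSpace G] [BorelSpace G] (ν : Measure G) [IsFiniteMeasure ν],
    (∀ g, ν.map (fun x => g * x * g⁻¹) = ν) → ν {1}ᶜ = 0

/-- `E` is an overgroup of finite index of the (centre free) factor `N`. -/
structure QV (E : Type) [Group E] [TopologicalSpace E] (N : Subgroup E) (r : ℕ) : Prop where
  top : IsTopologicalGroup E
  normal : N.Normal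
  opn : IsOpen (N : Set E)
  fin : N.FiniteIndex
  cent : ∀ g : E, (∀ n ∈ N, g * n = n * g) → g = 1
  qf : QF N r

end Vale.Agent.P092.VR
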