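import Vale.Agent.P092.QT.Q.Defs
import Vale.Agent.P092.VR.Defs

/-!
P092, project VR: the abstract blocks of project Q (helper157; text: helper715) with the weaker
hypothesis `FacV` on the places.
-/

set_option linter.all false

open MeasureTheory Filter Topology ContinuousLinearMap
open scoped InnerProductSpace ENNReal

namespace Vale.Agent.P092.VR.Q

open Vale.Agent.P092.H160 (Cmm)
open Vale.Agent.P092.QT.H156
open Vale.Agent.P092.QT.H156.Sm (Frm Fd Smo ip)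
open Vale.Agent.P092.QT.H715.Q (Dbl fl F1 TwS)
open Vale.Agent.P092.PA (Lat)
open Vale.Agent.P092.VR (FacV)
open Vale.Agent.P092.QT.Q (Esc Ovl)

/-- [Q-GAL] the vector fields `x ↦ a x ζ` are total. -/
def GalStmt : Prop :=
  ∀ (Γ X Y K G H : Type) [Group Γ] [Countable Γ] [Group X] [Countable X] [Group Y] [Countable Y]
    [NormedAddCommGroup K] [InnerProductSpace ℂ K] [CompleteSpace K]
    [Group G] [TopologicalSpace G] [IsTopologicalGroup G] [LocallyCompactSpace G]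
    [SecondCountableTopology G] [T2Space G] [MeasurableSpace G] [BorelSpace G]
    [Group H] [TopologicalSpace H] [IsTopologicalGroup H] [LocallyCompactSpace H]
    [SecondCountableTopology H] [T2Space H] [MeasurableSpace H] [BorelSpace H]
    (V W : Γ →* (K →L[ℂ] K)) (f : X →* Γ) (ρ : X →* (K →L[ℂ] K)) (f' : Y →* Γ)
    (ρ' : Y →* (K →L[ℂ] K)) (ω ω' : K) (p : Γ →* G) (κ : Γ →* H)
    (μ : Measure G) [μ.IsHaarMeasure] [μ.IsMulRightInvariant]
    (ν : Measure H) [ν.IsHaarMeasure] [ν.IsMulRightInvariant],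
    Dbl V W f ρ f' ρ' ω ω' → DenseRange p → DenseRange κ → FacV G → FacV H →
    F1 (p.comp f) κ ρ V ω μ → F1 (κ.comp f') p ρ' W ω' ν →
    (∃ a, TwS V f ρ ω ω' p κ μ ν a ∧ a ≠ 0) →
    ∀ ξ : Lp K 2 μ, (∀ a, TwS V f ρ ω ω' p κ μ ν a → ∀ ζ, ∫ x, ⟪a x ζ, ξ x⟫_ℂ ∂μ = 0) → ξ = 0

/-- [Q-C1] Theorem C: the two-sided algebra is commutative. -/
def C1Stmt : Prop :=
  ∀ (Γ X Y K G H : Type) [Group Γ] [Countable Γ] [Group X] [Countable X] [Group Y] [Countable Y]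
    [NormedAddCommGroup K] [InnerProductSpace ℂ K] [CompleteSpace K]
    [Group G] [TopologicalSpace G] [IsTopologicalGroup G] [LocallyCompactSpace G]
    [SecondCountableTopology G] [T2Space G] [MeasurableSpace G] [BorelSpace G]
    [Group H] [TopologicalSpace H] [IsTopologicalGroup H] [LocallyCompactSpace H]
    [SecondCountableTopology H] [T2Space H] [MeasurableSpace H] [BorelSpace H]
    (V W : Γ →* (K →L[ℂ] K)) (f : X →* Γ) (ρ : X →* (K →L[ℂ] K)) (f' : Y →* Γ)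
    (ρ' : Y →* (K →L[ℂ] K)) (ω ω' : K) (p : Γ →* G) (κ : Γ →* H)
    (μ : Measure G) [μ.IsHaarMeasure] [μ.IsMulRightInvariant]
    (ν : Measure H) [ν.IsHaarMeasure] [ν.IsMulRightInvariant],
    Dbl V W f ρ f' ρ' ω ω' → DenseRange p → DenseRange κ → FacV G → FacV H →
    F1 (p.comp f) κ ρ V ω μ → F1 (κ.comp f') p ρ' W ω' ν →
    (∃ a, TwS V f ρ ω ω' p κ μ ν a ∧ a ≠ 0) →
    ∀ a b, TwS V f ρ ω ω' p κ μ ν a → TwS V f ρ ω ω' p κ μ ν b → ∀ x y, a x * b y = b y * a x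

/-- [Q-C2] Theorem C, pair version: the two-sided algebras of the two legs commute, for the same
source place. -/
def C2Stmt : Prop :=
  ∀ (Γ X Y₁ Y₂ K G₁ G₂ H : Type) [Group Γ] [Countable Γ] [Group X] [Countable X] [Group Y₁]
    [Countable Y₁] [Group Y₂] [Countable Y₂]
    [NormedAddCommGroup K] [InnerProductSpace ℂ K] [CompleteSpace K]
    [Group G₁] [TopologicalSpace G₁] [IsTopologicalGroup G₁] [LocallyCompactSpace G₁]
    [SecondCountableTopology G₁] [T2Space G₁] [MeasurableSpace G₁] [BorelSpace G₁]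
    [Group G₂] [TopologicalSpace G₂] [IsTopologicalGroup G₂] [LocallyCompactSpace G₂]
    [SecondCountableTopology G₂] [T2Space G₂] [MeasurableSpace G₂] [BorelSpace G₂]
    [Group H] [TopologicalSpace H] [IsTopologicalGroup H] [LocallyCompactSpace H]
    [SecondCountableTopology H] [T2Space H] [MeasurableSpace H] [BorelSpace H]
    (V R₁ R₂ : Γ →* (K →L[ℂ] K)) (f₁ f₂ : X →* Γ) (ρ : X →* (K →L[ℂ] K)) (f₁' : Y₁ →* Γ)
    (ρ₁' : Y₁ →* (K →L[ℂ] K)) (f₂' : Y₂ →* Γ) (ρ₂' : Y₂ →* (K →L[ℂ] K)) (ω ω₁' ω₂' : K)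
    (p₁ : Γ →* G₁) (p₂ : Γ →* G₂) (κ : Γ →* H)
    (μ₁ : Measure G₁) [μ₁.IsHaarMeasure] [μ₁.IsMulRightInvariant]
    (μ₂ : Measure G₂) [μ₂.IsHaarMeasure] [μ₂.IsMulRightInvariant]
    (ν : Measure H) [ν.IsHaarMeasure] [ν.IsMulRightInvariant],
    Dbl V R₁ f₁ ρ f₁' ρ₁' ω ω₁' → Dbl V R₂ f₂ ρ f₂' ρ₂' ω ω₂' → (∀ g h, R₁ g * R₂ h = R₂ h * R₁ g) →
    (∀ x, ∃ n, f₁ n = 1 ∧ f₂ n = 1 ∧ ρ x = R₁ (f₁ x) * R₂ (f₂ x) * ρ n) → DenseRange p₁ → DenseRange p₂ → DenseRange κ →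
    FacV G₁ → FacV G₂ → FacV H →
    F1 (p₁.comp f₁) κ ρ V ω μ₁ → F1 (κ.comp f₁') p₁ ρ₁' R₁ ω₁' ν →
    F1 (p₂.comp f₂) κ ρ V ω μ₂ → F1 (κ.comp f₂') p₂ ρ₂' R₂ ω₂' ν →
    (∃ a, TwS V f₁ ρ ω ω₁' p₁ κ μ₁ ν a ∧ a ≠ 0) → (∃ b, TwS V f₂ ρ ω ω₂' p₂ κ μ₂ ν b ∧ b ≠ 0) →
    ∀ a b, TwS V f₁ ρ ω ω₁' p₁ κ μ₁ ν a → TwS V f₂ ρ ω ω₂' p₂ κ μ₂ ν b → ∀ x y, a x * b y = b y * a x

/-- [Q-C3] different source places (same leg or different legs: `ι'` is arbitrary): the two-sided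
algebra at the source place `κ` commutes with the smooth fields at the source place `κ'`.  `Γ` is a
lattice in `E` (a product of `H`, `H'` and other factors), `κ = π₁ ∘ q`, `κ' = π₂ ∘ q`. -/
def C3Stmt : Prop :=
  ∀ (Γ X Y K G G' H H' E : Type) [Group Γ] [Countable Γ] [Group X] [Countable X] [Group Y]
    [Countable Y] [NormedAddCommGroup K] [InnerProductSpace ℂ K] [CompleteSpace K]
    [Group G] [TopologicalSpace G] [IsTopologicalGroup G] [LocallyCompactSpace G]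
    [SecondCountableTopology G] [T2Space G] [MeasurableSpace G] [BorelSpace G]
    [Group G'] [TopologicalSpace G'] [IsTopologicalGroup G'] [LocallyCompactSpace G']
    [SecondCountableTopology G'] [T2Space G'] [MeasurableSpace G'] [BorelSpace G']
    [Group H] [TopologicalSpace H] [IsTopologicalGroup H] [LocallyCompactSpace H]
    [SecondCountableTopology H] [T2Space H] [MeasurableSpace H] [BorelSpace H]
    [Group H'] [TopologicalSpace H'] [IsTopologicalGroup H'] [LocallyCompactSpace H']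
    [SecondCountableTopology H'] [T2Space H']
    [Group E] [TopologicalSpace E] [IsTopologicalGroup E] [LocallyCompactSpace E]
    [SecondCountableTopology E] [T2Space E] [MeasurableSpace E] [BorelSpace E]
    (V W : Γ →* (K →L[ℂ] K)) (f : X →* Γ) (ρ : X →* (K →L[ℂ] K)) (f' : Y →* Γ)
    (ρ' : Y →* (K →L[ℂ] K)) (ω ω' : K) (p : Γ →* G) (κ : Γ →* H) (κ' : Γ →* H') (ι' : X →* G')
    (q : Γ →* E) (π₁ : E →* H) (π₂ : E →* H')
    (μ : Measure G) [μ.IsHaarMeasure] [μ.IsMulRightInvariant]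
    (μ' : Measure G') [μ'.IsHaarMeasure] [μ'.IsMulRightInvariant]
    (ν : Measure H) [ν.IsHaarMeasure] [ν.IsMulRightInvariant] (m : Measure E),
    Dbl V W f ρ f' ρ' ω ω' → DenseRange p → DenseRange κ → DenseRange κ' → DenseRange ι' →
    FacV G → FacV H → Continuous π₁ → Continuous π₂ → (∀ k : H, ∃ e : E, π₁ e = k ∧ π₂ e = 1) →
    (∀ g, κ g = π₁ (q g)) → (∀ g, κ' g = π₂ (q g)) → Lat q m →
    F1 (p.comp f) κ ρ V ω μ → F1 (κ.comp f') p ρ' W ω' ν → F1 ι' κ' ρ V ω μ' →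
    (∃ a, TwS V f ρ ω ω' p κ μ ν a ∧ a ≠ 0) →
    ∀ a b, TwS V f ρ ω ω' p κ μ ν a → Smo ι' κ' ρ V ω μ' b → ∀ x y, a x * b y = b y * a x

/-- The abstract blocks of project Q for places `FacV`. -/
structure Blk : Prop where
  base : Vale.Agent.P092.QT.Q.Blk
  gal : GalStmt
  c1 : C1Stmt
  c2 : C2Stmt
  c3 : C3Stmt

end Vale.Agent.P092.VR.Q
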