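import Vale.Agent.P092.VR.QMain
import Vale.Agent.P092.H333.FinQT

/-!
P092 (helper333), project VR: the abstract theorem in the model of an amplified frame, for places
`FacV`, and the conclusion for a group with these data.
-/

set_option linter.all false

open scoped InnerProductSpace Topology ENNReal
open Filter ContinuousLinearMap MeasureTheory

namespace Vale.Agent.P092.VR

open Vale.Agent.P092.H160 (Cmm Ell2)
open Vale.Agent.P092.H103 (AF)
open Vale.Agent.P092.SR (Tri ErgAt)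
open Vale.Agent.P092.SR.St (ICC SuperAll)
open Vale.Agent.P092.PA (Lat)
open Vale.Agent.P092.QT.H156.Sm (Frm Fd ACont Smo)
open Vale.Agent.P092.QT.H715.Q (Dbl F1)
open Vale.Agent.P092.QT.Q (Esc Ovl)
open Vale.Agent.P092.H962
open Vale.Agent.P092.H333.Amp

section top

variable {Γ Λ I P : Type} [Group Γ] [Countable Γ] [Group Λ] [Fintype I]
  {α : Γ → (Ell2 (I × Λ) →L[ℂ] Ell2 (I × Λ))} [Fintype P] {G : P → Type}
  [∀ i, Group (G i)] [∀ i, TopologicalSpace (G i)] [∀ i, IsTopologicalGroup (G i)]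
  [∀ i, LocallyCompactSpace (G i)] [∀ i, SecondCountableTopology (G i)] [∀ i, T2Space (G i)]
  [∀ i, MeasurableSpace (G i)] [∀ i, BorelSpace (G i)]

/-- **Project Q for places `FacV`, all amplifications, in the model of an amplified frame.** -/
theorem top_v (B : VR.Q.Blk)
    (hΓ : ∀ g : Γ, g ≠ 1 → Set.Infinite {y : Γ | ∃ h, y = h * g * h⁻¹})
    (hΛ : ∀ s : Λ, s ≠ 1 → Set.Infinite {y : Λ | ∃ h, y = h * s * h⁻¹}) (hα : AF α)
    (p : ∀ i, Γ →* G i) (μ : ∀ i, Measure (G i)) [∀ i, (μ i).IsHaarMeasure]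
    [∀ i, (μ i).IsMulRightInvariant] (m : Measure (∀ i, G i)) (lat : Lat (MonoidHom.pi p) m)
    (fac : ∀ i, FacV (G i)) (hd : ∀ i, DenseRange (p i)) (he : ∀ i k, i ≠ k → Esc (p i) (p k))
    (erg : ∀ i, ∀ (β : Γ → (Ell2 (I × Λ) →L[ℂ] Ell2 (I × Λ))) (hβ : AF β),
      ErgC (p i) (V3 hα hα hβ) (A3R hα hα hβ) (B3R hα hα hβ))
    (ne : ∀ i, ∀ (β : Γ → (Ell2 (I × Λ) →L[ℂ] Ell2 (I × Λ))) (hβ : AF β), ∃ j,
      NeC (p j) (p i) (V3 hα hα hβ) (A3R hα hα hβ) (B3R hα hα hβ) (μ j)) :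
    ∃ (s : ℕ) (η : Fin s → HH (PT α α α)) (c : ℝ), 0 < c ∧
      ∀ g, ∃ (i j : Fin s) (a b : Γ), c ≤ ‖⟪V3 hα hα hα g (η i),
        A3R hα hα hα a (B3R hα hα hα b (η j))⟫_ℂ‖ := by
  classical
  obtain ⟨N, hc, h1, h2, ω, ω', hD, hE⟩ := exists_model hΓ hΛ hα
  have hErg := fun i => hE (p i) (erg i)
  -- nonvanishing on the four frames
  have hS := (flip_AU hα hα hα).symm
  have hW := swap_AU (β := α) (γ := α) hα
  have n1 : ∀ i, ∃ j, NeC (p j) (p i) (V3 hα hα hα) (A3R hα hα hα) (B3R hα hα hα) (μ j) :=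
    fun i => ne i α hα
  have n2 : ∀ i, ∃ j, NeC (p j) (p i) (V3 hα hα hα) (B3R hα hα hα) (A3R hα hα hα) (μ j) := by
    intro i
    obtain ⟨j, hj⟩ := n1 i
    exact ⟨j, neC_au hW (swU_V hα hα hα) (swU_A hα hα hα) (swU_B hα hα hα) hj⟩
  have n3 : ∀ i, ∃ j, NeC (p j) (p i) (A3R hα hα hα) (V3 hα hα hα) (B3R hα hα hα) (μ j) := by
    intro i
    obtain ⟨j, hj⟩ := ne i _ (AF.bar hα)
    exact ⟨j, neC_au hS (flU'_V hα hα hα) (flU'_A hα hα hα) (flU'_B hα hα hα) hj⟩
  have n4 : ∀ i, ∃ j, NeC (p j) (p i) (B3R hα hα hα) (V3 hα hα hα) (A3R hα hα hα) (μ j) := by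
    intro i
    obtain ⟨j, hj⟩ := n3 i
    exact ⟨j, neC_au hW (swU_A hα hα hα) (swU_V hα hα hα) (swU_B hα hα hα) hj⟩
  have hovl : Ovl (av (Multiplicative (ZMod (N + 1))) (V3 hα hα hα))
      (rt (Multiplicative (ZMod (N + 1))) (pr (A3R hα hα hα) (B3R hα hα hα) hc)) := by
    refine VR.Q.Blk.main B
      (R := lR (Multiplicative (ZMod (N + 1))) (A3R hα hα hα) (B3R hα hα hα))
      (f := lf Γ (Multiplicative (ZMod (N + 1))))
      (f' := fun _ => lf Γ (Multiplicative (ZMod (N + 1))) false)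
      (ρ' := rl (Multiplicative (ZMod (N + 1))) (V3 hα hα hα) (A3R hα hα hα) (B3R hα hα hα) h1 h2)
      (ω := ω) (ω' := ω') p μ m lat fac hd he hD ?_ ?_ ?_ ?_ ?_ ?_ ?_ ?_
    · intro g k
      change amp (A3R hα hα hα g) * amp (B3R hα hα hα k) = amp (B3R hα hα hα k) *
        amp (A3R hα hα hα g)
      rw [← amp_mul, hc, amp_mul]
    · rintro ⟨⟨a, b⟩, f⟩
      refine ⟨((1, 1), f), fun l => by cases l <;> rfl, ?_⟩
      change amp (A3R hα hα hα a * B3R hα hα hα b) * sg f = amp (A3R hα hα hα a) *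
        amp (B3R hα hα hα b) * (amp (A3R hα hα hα 1 * B3R hα hα hα 1) * sg f)
      rw [map_one, map_one, one_mul, amp_one, one_mul, amp_mul]
    · intro l
      cases l
      · exact fun g => ⟨((g, 1), 1), rfl⟩
      · exact fun g => ⟨((1, g), 1), rfl⟩
    · have h3 : {x : XG Γ (Multiplicative (ZMod (N + 1))) |
          ∀ l, lf Γ (Multiplicative (ZMod (N + 1))) l x = 1} ⊆
          Set.range fun f : FG (Multiplicative (ZMod (N + 1))) => ((((1 : Γ), (1 : Γ)), f) :
            XG Γ (Multiplicative (ZMod (N + 1)))) := by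
        rintro ⟨⟨a, b⟩, f⟩ hx
        have ha : a = 1 := hx false
        have hb : b = 1 := hx true
        exact ⟨f, by rw [ha, hb]⟩
      exact (Set.finite_range _).subset h3
    · intro l i j
      exact QT.H805.f1_of_erg (hD l).fr (hErg i).1
    · intro l i j
      exact QT.H805.f1_of_erg (hD l).fr' ((hErg j).2 l)
    · intro l i
      cases l with
      | false =>
        obtain ⟨j, b, hb, hb0⟩ := n1 i
        exact ⟨j, _, smo_false hb hc ω, amp_ne hb0⟩
      | true =>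
        obtain ⟨j, b, hb, hb0⟩ := n2 i
        exact ⟨j, _, smo_true hb hc ω, amp_ne hb0⟩
    · intro l i
      cases l with
      | false =>
        obtain ⟨j, b, hb, hb0⟩ := n3 i
        exact ⟨j, _, smo_false hb h2 (ω' false), amp_ne hb0⟩
      | true =>
        obtain ⟨j, b, hb, hb0⟩ := n4 i
        exact ⟨j, _, smo_false hb h1 (ω' true), amp_ne hb0⟩
  obtain ⟨r, ζ, κ, hκ, -, hov⟩ := hovl
  exact overlap_down hκ hov

end top

/-- The data of a lattice with dense projections in the places `G i`. -/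
structure GrpV {Γ I : Type} [Group Γ] {G : I → Type} [∀ i, Group (G i)]
    [∀ i, TopologicalSpace (G i)] [MeasurableSpace (∀ i, G i)] (p : ∀ i, Γ →* G i)
    (m : Measure (∀ i, G i)) : Prop where
  lat : Lat (MonoidHom.pi p) m
  fac : ∀ i, FacV (G i)
  dense : ∀ i, DenseRange (p i)
  esc : ∀ i k, i ≠ k → Esc (p i) (p k)
  inj : ∀ g, (∀ i, p i g = 1) → g = 1

section canon

variable {Γ P : Type} [Group Γ] [Fintype P] {G : P → Type}
  [∀ i, Group (G i)] [∀ i, TopologicalSpace (G i)] [∀ i, IsTopologicalGroup (G i)]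
  [∀ i, LocallyCompactSpace (G i)] [∀ i, SecondCountableTopology (G i)] [∀ i, T2Space (G i)]
  [∀ i, MeasurableSpace (G i)] [∀ i, BorelSpace (G i)]

/-- A lattice is countable. -/
theorem GrpV.countable {p : ∀ i, Γ →* G i} {m : Measure (∀ i, G i)} (h : GrpV p m) :
    Countable Γ := by
  have h1 : (⋃ n, {v : Γ | MonoidHom.pi p v ∈ compactCovering (∀ i, G i) n}) = Set.univ := by
    rw [Set.eq_univ_iff_forall]
    intro v
    have h2 : MonoidHom.pi p v ∈ ⋃ n, compactCovering (∀ i, G i) n := by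
      rw [iUnion_compactCovering]
      exact Set.mem_univ _
    obtain ⟨n, hn⟩ := Set.mem_iUnion.1 h2
    exact Set.mem_iUnion.2 ⟨n, hn⟩
  rw [← Set.countable_univ_iff, ← h1]
  exact Set.countable_iUnion fun n => (h.lat.fin _ (isCompact_compactCovering _ n)).countable

/-- **The conclusion for a group with the data `GrpV`**, all amplifications. -/
theorem superAll_v (B : VR.Q.Blk) (hicc : ICC Γ) {p : ∀ i, Γ →* G i}
    (μ : ∀ i, Measure (G i)) [∀ i, (μ i).IsHaarMeasure] [∀ i, (μ i).IsMulRightInvariant]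
    {m : Measure (∀ i, G i)} (h : GrpV p m) (erg : ErgAllT p) (ne : NeAllT p μ) :
    SuperAll Γ := by
  intro Λ _ _ hΛ n q hq θ
  haveI := h.countable
  have hα := H103.af_of hicc hq θ
  obtain ⟨s, η, c, hc, hov⟩ := top_v B hicc hΛ hα p μ m h.lat h.fac h.dense h.esc
    (fun i β hβ => erg Λ (Fin n) _ hα hΛ i β hβ) (fun i β hβ => ne Λ (Fin n) _ hα hΛ i β hβ)
  exact H58.canonM_of_overlap hicc hΛ hq θ rfl hα η hc hov

end canon

end Vale.Agent.P092.VR
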