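import Vale.Agent.P092.VR.Final
import Vale.Agent.P092.VR.Cls
import Vale.Agent.P092.H333.V.Ov2
import Vale.Agent.P092.H333.BlkT
import Vale.Agent.P092.VR.H156.Gal
import Vale.Agent.P092.VR.H156.Conn
import Vale.Agent.P092.VR.H565.C3
import Vale.Agent.P092.VR.H720.C1
import Vale.Agent.P092.VR.H978.C2V
import Vale.Agent.P092.VR.H978.GrpV

/-!
P092 (helper971), project VR: the main theorem for overgroups of finite index.
-/

set_option linter.all false

open scoped InnerProductSpace Topology ENNReal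
open Filter ContinuousLinearMap MeasureTheory

namespace Vale.Agent.P092.VR

open Vale.Agent.P092.H160 (Ell2)
open Vale.Agent.P092.H103 (AF)
open Vale.Agent.P092.H515.St (IsLattice)
open Vale.Agent.P092.SR.St (ICC SuperAll)
open Vale.Agent.P092.H962
open Vale.Agent.P092.H333.Amp
open Vale.Agent.P092.H333.V
open Vale.Agent.P092.QC (QF Td MauU)
open Vale.Agent.P092.QT.NE (ev)
open Vale.Agent.P092.QCT (pi_ev ev_inj)
open Vale.Agent.P092.VR.St (ClsV ClassLatticeV)

section erg

variable {P : Type} [Fintype P] {M E : P → Type} [∀ i, Group (M i)]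
  [∀ i, TopologicalSpace (M i)] [∀ i, Group (E i)] [∀ i, TopologicalSpace (E i)]
  {φ : ∀ i, M i →* E i} {r : P → ℕ} {R : ∀ i, Subgroup (E i)}

/-- The quotient of a totally disconnected overgroup by the radical. -/
theorem tdV_quo {M E : Type} [Group M] [TopologicalSpace M] [Group E] [TopologicalSpace E]
    {φ : M →* E} {r : ℕ} (h : Ov φ r) {R : Subgroup E} (hR : IsRad φ R) [R.Normal] (ht : Td M) :
    TV628.TdV (E ⧸ R) := by
  haveI := h.top
  haveI := h.qf.top
  haveI := tg_quo h hR
  haveI := h.qf.fin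
  have hk : (((QuotientGroup.mk' R).comp φ).ker : Set M).Finite := by
    rw [← MonoidHom.comap_ker, QuotientGroup.ker_mk', hR.comap]
    exact Set.toFinite _
  have hr : ((QuotientGroup.mk' R).comp φ).range = NN φ R := by
    rw [MonoidHom.range_comp]
  refine TV628.TdV.of_hom ((QuotientGroup.mk' R).comp φ)
    (QuotientGroup.continuous_mk.comp h.cont) (QuotientGroup.isOpenMap_coe.comp h.opn) hk ?_ ht ?_
  · rw [hr]
    exact (nn_fin h.fin).index_ne_zero
  · intro hc
    refine noncpt_nn h hR ?_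
    rw [← hr, MonoidHom.coe_range]
    rw [← Set.image_univ]
    exact hc.image (QuotientGroup.continuous_mk.comp h.cont)

/-- **Ergodicity at all places modulo the radicals.** -/
theorem ergAllV (h : ∀ i, Ov (φ i) (r i)) (hR : ∀ i, IsRad (φ i) (R i)) [∀ i, (R i).Normal]
    (Γ : Subgroup (∀ i, E i)) (hlat : IsLattice Γ) (hd : ∀ i, DenseRange (ev Γ i)) (hicc : ICC Γ) :
    ErgAllT (fun i => (QuotientGroup.mk' (R i)).comp (ev Γ i)) := by
  haveI := fun i => (h i).top
  haveI := fun i => Ov.lc (h i)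
  haveI := fun i => Ov.sc (h i)
  haveI := fun i => Ov.t2 (h i)
  haveI := fun i => tg_quo (h i) (hR i)
  intro Λ _ _ I _ α hα hΛ i β hβ
  have hp : DenseRange ((QuotientGroup.mk' (R i)).comp (ev Γ i)) :=
    (QuotientGroup.mk'_surjective _).denseRange.comp (hd i) continuous_quotient_mk'
  rcases (h i).qf.erg with hc | ht
  · haveI := nn_fin (R := R i) (h i).fin
    exact ergC_conn_over (NN (φ i) (R i)) (nn_open (h i).opn) (conn_nn (h i) (hR i) hc)
      (facS_nn (h i) (hR i)) hicc hΛ hα hα hβ hp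
  · exact TV628.ergC_tdV (tdV_quo (h i) (hR i) ht) hicc hα hα hβ hΛ hp fun U hU g hg =>
      H978.ricc_quo_open h R hR (fun i => facV_quo (h i) (hR i)) (ev Γ) (ev_inj Γ)
        (by rw [pi_ev]; exact hlat) hicc i (hd i) U hU hg

/-- The blocks. -/
theorem blkV : VR.Q.Blk :=
  ⟨H333.Amp.blkT, Vale.Agent.P092.VR.H156.Gal.galV, H720.c1V, H978.c2V, H565.c3V⟩

end erg

section main

variable {P : Type} [Fintype P] {M E : P → Type} [∀ i, Group (M i)]
  [∀ i, TopologicalSpace (M i)] [∀ i, Group (E i)] [∀ i, TopologicalSpace (E i)]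
  {φ : ∀ i, M i →* E i} {r : P → ℕ}

/-- **The final theorem for lattices in products of overgroups of factors**, all amplifications. -/
theorem superAll_ov (h : ∀ i, Ov (φ i) (r i))
    (Γ : Subgroup (∀ i, E i)) (hlat : IsLattice Γ) (hd : ∀ i, DenseRange (ev Γ i))
    (hicc : ICC Γ) : SuperAll Γ := by
  choose R hR using fun i => exists_rad (h i)
  haveI := fun i => (hR i).normal
  haveI := fun i => (hR i).fin
  haveI := fun i => (h i).top
  haveI := fun i => Ov.lc (h i)
  haveI := fun i => Ov.sc (h i)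
  haveI := fun i => Ov.t2 (h i)
  haveI := fun i => tg_quo (h i) (hR i)
  haveI := fun i => lc_quo (h i) (hR i)
  haveI := fun i => sc_quo (h i) (hR i)
  haveI := fun i => t2_quo (h i) (hR i)
  letI : ∀ i, MeasurableSpace (E i ⧸ R i) := fun i => borel _
  haveI : ∀ i, BorelSpace (E i ⧸ R i) := fun i => ⟨rfl⟩
  haveI : ∀ i, (Measure.haar : Measure (E i ⧸ R i)).IsMulRightInvariant := fun i =>
    rinv_quo (h i) (hR i) _
  obtain ⟨m, hm⟩ := H978.grpV h R hR (fun i => facV_quo (h i) (hR i)) Γ hlat hd hicc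
  have hE : ErgAllT (fun i => (QuotientGroup.mk' (R i)).comp (ev Γ i)) :=
    ergAllV h hR Γ hlat hd hicc
  exact superAll_v blkV hicc (fun i => Measure.haar) hm hE
    (neAllV h Γ hlat hd hicc hE fun i => Measure.haar)

/-- **The final theorem**, homomorphism form. -/
theorem superAll_ovh (h : ∀ i, Ov (φ i) (r i)) {Γ : Type} [Group Γ]
    (q : Γ →* ∀ i, E i) (hi : Function.Injective q) (hlat : IsLattice q.range)
    (hd : ∀ i, DenseRange fun g => q g i) (hicc : ICC Γ) : SuperAll Γ := by
  have e : Γ ≃* q.range := MonoidHom.ofInjective hi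
  have h1 : SuperAll q.range := superAll_ov h q.range hlat (fun j => by
    refine (hd j).mono ?_
    rintro _ ⟨g, rfl⟩
    exact ⟨⟨q g, g, rfl⟩, rfl⟩) fun g hg => H133.icc_equiv e hicc g hg
  intro Λ _ _ hΛ N p hp θ
  exact ⟨(h1 Λ hΛ N p hp (H133.transC e θ)).1,
    H133.canonicalM_transC e θ (h1 Λ hΛ N p hp _).2⟩

/-- **The main theorem for the class `ClsV`**, all amplifications. -/
theorem superAll_classV (Γ : Type) [Group Γ] (h : ClassLatticeV Γ) : SuperAll Γ := by
  obtain ⟨hicc, I, _, E, _, _, i, hE, hi⟩ := h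
  choose M gM tM φ r hr using fun j => clsV_ov (hE j)
  exact superAll_ovh hr i hi.inj hi.lat hi.dense hicc

end main

end Vale.Agent.P092.VR
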