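import Vale.Agent.P092.VR.Defs
import Vale.Agent.P092.H978.Grp

/-!
P092 (helper971), project VR: overgroups of factors are places.
-/

set_option linter.all false

open MeasureTheory Filter Topology Set

namespace Vale.Agent.P092.VR

open Vale.Agent.P092.PA (FacS)
open Vale.Agent.P092.QC (QF)

section alg

variable {E : Type} [Group E] [TopologicalSpace E] {N : Subgroup E}

/-- A nontrivial normal subgroup contains the factor. -/
theorem le_of_normal (hn : N.Normal) (hc : ∀ g : E, (∀ n ∈ N, g * n = n * g) → g = 1)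
    (hs : ∀ M : Subgroup N, M.Normal → M = ⊥ ∨ M = ⊤) (M : Subgroup E) (hM : M.Normal)
    (h0 : M ≠ ⊥) : N ≤ M := by
  rcases hs (M.subgroupOf N) inferInstance with h | h
  · exfalso
    apply h0
    rw [Subgroup.eq_bot_iff_forall]
    intro m hm
    refine hc m fun n hnn => ?_
    have h1 : m * n * m⁻¹ * n⁻¹ ∈ M := by
      have h2 : n * m⁻¹ * n⁻¹ ∈ M := hM.conj_mem _ (M.inv_mem hm) n
      have e : m * n * m⁻¹ * n⁻¹ = m * (n * m⁻¹ * n⁻¹) := by group
      rw [e]
      exact M.mul_mem hm h2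
    have h3 : m * n * m⁻¹ * n⁻¹ ∈ N := N.mul_mem (hn.conj_mem n hnn m) (N.inv_mem hnn)
    have h4 : (⟨m * n * m⁻¹ * n⁻¹, h3⟩ : N) ∈ M.subgroupOf N := Subgroup.mem_subgroupOf.2 h1
    rw [h, Subgroup.mem_bot] at h4
    have h5 : m * n * m⁻¹ * n⁻¹ = 1 := congrArg Subtype.val h4
    rwa [mul_inv_eq_one, mul_inv_eq_iff_eq_mul] at h5
  · exact Subgroup.subgroupOf_eq_top.1 h

theorem not_comm_self (hc : ∀ g : E, (∀ n ∈ N, g * n = n * g) → g = 1) (hN : FacS N)
    (h : ∀ a ∈ N, ∀ b ∈ N, a * b = b * a) : False := by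
  refine hN.nc ⟨?_⟩
  have e : (univ : Set N) = {1} := by
    ext x
    simp only [mem_univ, mem_singleton_iff, true_iff]
    exact Subtype.ext (hc x.1 fun n hn => h _ x.2 _ hn)
  rw [e]
  exact isCompact_singleton

theorem pair_of (hn : N.Normal) (hc : ∀ g : E, (∀ n ∈ N, g * n = n * g) → g = 1)
    (hN : FacS N) {S T : Set E} (hS : ∀ s, ∀ t ∈ S, s * t * s⁻¹ ∈ S)
    (hT : ∀ s, ∀ t ∈ T, s * t * s⁻¹ ∈ T) (hcomm : ∀ s ∈ S, ∀ t ∈ T, s * t = t * s) :
    S ⊆ {1} ∨ T ⊆ {1} := by
  by_cases h1 : Subgroup.closure S = ⊥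
  · left
    intro x hx
    have : x ∈ Subgroup.closure S := Subgroup.subset_closure hx
    rw [h1, Subgroup.mem_bot] at this
    exact this
  by_cases h2 : Subgroup.closure T = ⊥
  · right
    intro x hx
    have : x ∈ Subgroup.closure T := Subgroup.subset_closure hx
    rw [h2, Subgroup.mem_bot] at this
    exact this
  exfalso
  have k1 := le_of_normal hn hc hN.simple _ (Vale.Agent.P092.H978.closure_normal hS) h1
  have k2 := le_of_normal hn hc hN.simple _ (Vale.Agent.P092.H978.closure_normal hT) h2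
  have h3 : ∀ x ∈ Subgroup.closure S, ∀ t ∈ T, x * t = t * x := by
    intro x hx t ht
    induction hx using Subgroup.closure_induction with
    | mem x hx => exact hcomm x hx t ht
    | one => rw [one_mul, mul_one]
    | mul x y _ _ e1 e2 => rw [mul_assoc, e2, ← mul_assoc, e1, mul_assoc]
    | inv x _ e1 => rw [inv_mul_eq_iff_eq_mul, ← mul_assoc, e1, mul_assoc, mul_inv_cancel, mul_one]
  have h4 : ∀ x ∈ Subgroup.closure S, ∀ y ∈ Subgroup.closure T, x * y = y * x := by
    intro x hx y hy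
    induction hy using Subgroup.closure_induction with
    | mem y hy => exact h3 x hx y hy
    | one => rw [one_mul, mul_one]
    | mul y z _ _ e1 e2 => rw [← mul_assoc, e1, mul_assoc, e2, mul_assoc]
    | inv y _ e1 => rw [eq_inv_mul_iff_mul_eq, ← mul_assoc, ← e1, mul_assoc, mul_inv_cancel, mul_one]
  exact not_comm_self hc hN fun a ha b hb => h4 a (k1 ha) b (k2 hb)

end alg

section meas

variable {E : Type} [Group E] [TopologicalSpace E] [IsTopologicalGroup E]
  [SecondCountableTopology E] [T2Space E] [MeasurableSpace E] [BorelSpace E] {N : Subgroup E}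

theorem map_conj_restrict (ν : Measure E) (hν : ∀ g, ν.map (fun x => g * x * g⁻¹) = ν) {C : Set E}
    (hC : MeasurableSet C) (g : E) (h : ∀ x, g * x * g⁻¹ ∈ C ↔ x ∈ C) :
    (ν.restrict C).map (fun x => g * x * g⁻¹) = ν.restrict C := by
  have hm : Measurable fun x : E => g * x * g⁻¹ :=
    (by fun_prop : Continuous fun x : E => g * x * g⁻¹).measurable
  ext s hs
  rw [Measure.map_apply hm hs, Measure.restrict_apply (hm hs), Measure.restrict_apply hs]
  have e : (fun x => g * x * g⁻¹) ⁻¹' s ∩ C = (fun x => g * x * g⁻¹) ⁻¹' (s ∩ C) := by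
    ext x
    simp only [mem_inter_iff, mem_preimage]
    rw [h]
  rw [e, ← Measure.map_apply hm (hs.inter hC), hν]

/-- A finite measure on the overgroup which is invariant under conjugation by the factor and lives on
the factor is carried by `1`. -/
theorem null_factor (ho : IsOpen (N : Set E)) (hN : FacS N) (ν : Measure E) [IsFiniteMeasure ν]
    (hν : ∀ g ∈ N, ν.map (fun x => g * x * g⁻¹) = ν) : ν ((N : Set E) \ {1}) = 0 := by
  have hNm : MeasurableSet (N : Set E) := ho.measurableSet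
  have hemb : MeasurableEmbedding (Subtype.val : N → E) := MeasurableEmbedding.subtype_coe hNm
  haveI := hN.top
  haveI := hN.sc
  have hfin : IsFiniteMeasure (ν.comap (Subtype.val : N → E)) := by
    refine ⟨?_⟩
    rw [hemb.comap_apply]
    exact measure_lt_top _ _
  have h1 := hN.recu.null (ν.comap (Subtype.val : N → E)) fun g => by
    have hm : Measurable fun x : N => g * x * g⁻¹ :=
      (by fun_prop : Continuous fun x : N => g * x * g⁻¹).measurable
    have hm' : Measurable fun x : E => (g : E) * x * (g : E)⁻¹ :=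
      (by fun_prop : Continuous fun x : E => (g : E) * x * (g : E)⁻¹).measurable
    ext s hs
    rw [Measure.map_apply hm hs, hemb.comap_apply, hemb.comap_apply]
    have hs' : MeasurableSet (Subtype.val '' s : Set E) := hemb.measurableSet_image.2 hs
    have h2 : ν (Subtype.val '' s) = ν ((fun x : E => (g : E) * x * (g : E)⁻¹) ⁻¹'
        (Subtype.val '' s)) := by
      conv_lhs => rw [← hν g g.2]
      rw [Measure.map_apply hm' hs']
    rw [h2]
    congr 1
    ext x
    constructor
    · rintro ⟨y, hy, rfl⟩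
      exact ⟨_, hy, rfl⟩
    · rintro ⟨y, hy, he⟩
      have hx : x ∈ N := by
        have h3 : x = (g : E)⁻¹ * y * g := by
          rw [he]; group
        rw [h3]
        exact N.mul_mem (N.mul_mem (N.inv_mem g.2) y.2) g.2
      refine ⟨⟨x, hx⟩, ?_, rfl⟩
      show g * ⟨x, hx⟩ * g⁻¹ ∈ s
      have h4 : g * ⟨x, hx⟩ * g⁻¹ = y := Subtype.ext he.symm
      rw [h4]
      exact hy
  rw [hemb.comap_apply] at h1
  refine measure_mono_null ?_ h1
  rintro x ⟨hx, hx1⟩
  exact ⟨⟨x, hx⟩, fun h => hx1 (congrArg Subtype.val h), rfl⟩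

/-- A coset outside the factor is null. -/
theorem null_coset (hn : N.Normal) (ho : IsOpen (N : Set E))
    (hc : ∀ g : E, (∀ n ∈ N, g * n = n * g) → g = 1) (hN : FacS N) (ν : Measure E)
    [IsFiniteMeasure ν] (hν : ∀ g, ν.map (fun x => g * x * g⁻¹) = ν) (x : E) (hx : x ∉ N) :
    ν {y | x⁻¹ * y ∈ N} = 0 := by
  classical
  obtain ⟨C, hCdef⟩ : ∃ C : Set E, C = {y | x⁻¹ * y ∈ N} := ⟨_, rfl⟩
  rw [← hCdef]
  have hCo : IsOpen C := by
    rw [hCdef]
    exact ho.preimage (f := fun y : E => x⁻¹ * y) (by fun_prop)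
  have hCm := hCo.measurableSet
  have hconj : ∀ g ∈ N, ∀ y, g * y * g⁻¹ ∈ C ↔ y ∈ C := by
    have key : ∀ g ∈ N, ∀ y, y ∈ C → g * y * g⁻¹ ∈ C := by
      intro g hg y hy
      rw [hCdef] at hy ⊢
      have e : x⁻¹ * (g * y * g⁻¹) = (x⁻¹ * g * x) * (x⁻¹ * y) * g⁻¹ := by group
      show x⁻¹ * (g * y * g⁻¹) ∈ N
      rw [e]
      have h1 : x⁻¹ * g * x ∈ N := by
        have := hn.conj_mem g hg x⁻¹
        simpa using this
      exact N.mul_mem (N.mul_mem h1 hy) (N.inv_mem hg)
    intro g hg y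
    refine ⟨fun h => ?_, key g hg y⟩
    have h1 := key g⁻¹ (N.inv_mem hg) _ h
    have e : g⁻¹ * (g * y * g⁻¹) * g⁻¹⁻¹ = y := by group
    rwa [e] at h1
  set η := ν.restrict C with hη
  have hηc : ∀ g ∈ N, η.map (fun x => g * x * g⁻¹) = η := fun g hg =>
    map_conj_restrict ν hν hCm g (hconj g hg)
  have hdm : Measurable fun z : E × E => z.1⁻¹ * z.2 :=
    (by fun_prop : Continuous fun z : E × E => z.1⁻¹ * z.2).measurable
  obtain ⟨L, hL⟩ : ∃ L : Measure E, L = (η.prod η).map fun z => z.1⁻¹ * z.2 := ⟨_, rfl⟩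
  haveI : IsFiniteMeasure L := by rw [hL]; infer_instance
  have hLc : ∀ g ∈ N, L.map (fun x => g * x * g⁻¹) = L := by
    intro g hg
    have hm : Measurable fun x : E => g * x * g⁻¹ :=
      (by fun_prop : Continuous fun x : E => g * x * g⁻¹).measurable
    have hm2 : Measurable (Prod.map (fun x : E => g * x * g⁻¹) fun x : E => g * x * g⁻¹) :=
      hm.prodMap hm
    rw [hL, Measure.map_map hm hdm]
    have e : (fun x : E => g * x * g⁻¹) ∘ (fun z : E × E => z.1⁻¹ * z.2) =
        (fun z : E × E => z.1⁻¹ * z.2) ∘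
          Prod.map (fun x : E => g * x * g⁻¹) fun x : E => g * x * g⁻¹ := by
      funext z
      simp only [Function.comp_apply, Prod.map_fst, Prod.map_snd]
      group
    rw [e, ← Measure.map_map hdm hm2, ← Measure.map_prod_map η η hm hm, hηc g hg]
  have h1 := null_factor ho hN L hLc
  -- the diagonal
  have h2 : (η.prod η) {z | z.1 ≠ z.2} = 0 := by
    have h3 : ∀ᵐ z ∂(η.prod η), z.1⁻¹ * z.2 ∉ (N : Set E) \ {1} := by
      rw [ae_iff]
      simp only [not_not]
      have h4 : L ((N : Set E) \ {1}) = (η.prod η) ((fun z => z.1⁻¹ * z.2) ⁻¹'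
          ((N : Set E) \ {1})) := by
        rw [hL, Measure.map_apply hdm (ho.measurableSet.diff (measurableSet_singleton 1))]
      rw [h4] at h1
      exact h1
    have h4 : ∀ᵐ z ∂(η.prod η), z.1 ∈ C ∧ z.2 ∈ C := by
      have h5 : ∀ᵐ y ∂η, y ∈ C := ae_restrict_mem hCm
      have h6 : ∀ᵐ z ∂(η.prod η), z.1 ∈ C := Measure.quasiMeasurePreserving_fst.ae h5
      have h7 : ∀ᵐ z ∂(η.prod η), z.2 ∈ C := Measure.quasiMeasurePreserving_snd.ae h5
      filter_upwards [h6, h7] with z a b using ⟨a, b⟩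
    have h5 : ∀ᵐ z ∂(η.prod η), ¬ z ∈ {z : E × E | z.1 ≠ z.2} := by
      filter_upwards [h3, h4] with z a b
      intro hz
      refine a ⟨?_, fun h => hz (inv_mul_eq_one.1 h)⟩
      obtain ⟨b1, b2⟩ := b
      rw [hCdef] at b1 b2
      have e : z.1⁻¹ * z.2 = (x⁻¹ * z.1)⁻¹ * (x⁻¹ * z.2) := by group
      show z.1⁻¹ * z.2 ∈ N
      rw [e]
      exact N.mul_mem (N.inv_mem b1) b2
    rw [ae_iff] at h5
    simpa using h5
  by_contra hne
  have hη0 : η ≠ 0 := by
    rw [hη, Ne, Measure.restrict_eq_zero]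
    exact hne
  have h3 : ∀ᵐ a ∂η, η {b | a ≠ b} = 0 := by
    have h4 := (Measure.measure_prod_null (μ := η) (ν := η)
      (isOpen_ne_fun continuous_fst continuous_snd).measurableSet).1 h2
    filter_upwards [h4] with a ha
    exact ha
  have h4 : ∀ᵐ a ∂η, a ∈ C := ae_restrict_mem hCm
  haveI : (ae η).NeBot := ae_neBot.2 hη0
  obtain ⟨a, ha, haC⟩ := (h3.and h4).exists
  have h5 : η {a}ᶜ = 0 := by
    refine measure_mono_null (fun b hb => ?_) ha
    exact fun h => hb h.symm
  have h6 : a = 1 := by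
    refine hc a fun g hg => ?_
    by_contra hne'
    have h7 : g * a * g⁻¹ ≠ a := fun h => by
      rw [mul_inv_eq_iff_eq_mul] at h
      exact hne' h.symm
    have h8 : η {g * a * g⁻¹} = 0 := measure_mono_null (by
      rintro y rfl
      exact h7) h5
    have hm : Measurable fun x : E => g * x * g⁻¹ :=
      (by fun_prop : Continuous fun x : E => g * x * g⁻¹).measurable
    have h9 : η {g * a * g⁻¹} = η {a} := by
      conv_lhs => rw [← hηc g hg]
      rw [Measure.map_apply hm (measurableSet_singleton _)]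
      congr 1
      ext y
      simp only [mem_preimage, mem_singleton_iff]
      constructor
      · intro h
        exact mul_left_cancel (mul_right_cancel h)
      · rintro rfl
        rfl
    have h10 : η univ = 0 := by
      have e : (univ : Set E) = {a} ∪ {a}ᶜ := by simp
      rw [e]
      refine le_antisymm ((measure_union_le _ _).trans ?_) (zero_le)
      rw [h5, ← h9, h8, add_zero]
    exact hη0 (Measure.measure_univ_eq_zero.1 h10)
  rw [h6, hCdef] at haC
  have h7 : x⁻¹ * 1 ∈ N := haC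
  rw [mul_one] at h7
  exact hx (by simpa using N.inv_mem h7)

/-- **Overgroups are places.** -/
theorem null_of (hn : N.Normal) (ho : IsOpen (N : Set E)) [N.FiniteIndex]
    (hc : ∀ g : E, (∀ n ∈ N, g * n = n * g) → g = 1) (hN : FacS N) (ν : Measure E)
    [IsFiniteMeasure ν] (hν : ∀ g, ν.map (fun x => g * x * g⁻¹) = ν) : ν {1}ᶜ = 0 := by
  haveI : Finite (E ⧸ N) := Subgroup.finite_quotient_of_finiteIndex
  have h1 := null_factor ho hN ν fun g _ => hν g
  have h2 : ∀ q : E ⧸ N, ν ({y | (q.out)⁻¹ * y ∈ N} \ {1}) = 0 := by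
    intro q
    by_cases hq : q.out ∈ N
    · refine measure_mono_null (fun y hy => ?_) h1
      refine ⟨?_, hy.2⟩
      have e : y = q.out * ((q.out)⁻¹ * y) := by group
      rw [e]
      exact N.mul_mem hq hy.1
    · exact measure_mono_null diff_subset (null_coset hn ho hc hN ν hν _ hq)
  have h3 : ({1}ᶜ : Set E) ⊆ ⋃ q : E ⧸ N, ({y | (q.out)⁻¹ * y ∈ N} \ {1}) := by
    intro y hy
    refine mem_iUnion.2 ⟨(y : E ⧸ N), ?_, hy⟩
    exact QuotientGroup.eq.1 (QuotientGroup.out_eq' (y : E ⧸ N))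
  exact measure_mono_null h3 (measure_iUnion_null h2)

end meas

end Vale.Agent.P092.VR
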