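import Vale.Agent.P092.H515.SharpProd

/-!
P092 (helper971), project VR: the intersection of a lattice with an open subgroup is a lattice.
-/

set_option linter.all false

open MeasureTheory Filter Topology Set

namespace Vale.Agent.P092.VR

open Vale.Agent.P092.H515 (IsLattice)

section lat

variable {M E : Type} [Group M] [TopologicalSpace M] [IsTopologicalGroup M] [Group E]
  [TopologicalSpace E] [IsTopologicalGroup E] [SecondCountableTopology E]

/-- The map of the quotients. -/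
def qmap (φ : M →* E) (Γ : Subgroup E) : M ⧸ Γ.comap φ → E ⧸ Γ :=
  Quotient.map' φ (by
    intro a b h
    rw [QuotientGroup.leftRel_apply] at h ⊢
    rw [← map_inv, ← map_mul]
    exact h)

theorem qmap_mk (φ : M →* E) (Γ : Subgroup E) (x : M) :
    qmap φ Γ (x : M ⧸ Γ.comap φ) = (φ x : E ⧸ Γ) := rfl

theorem qmap_inj (φ : M →* E) (Γ : Subgroup E) : Function.Injective (qmap φ Γ) := by
  intro a b
  refine Quotient.inductionOn₂' a b fun x y h => ?_
  have h1 : (φ x : E ⧸ Γ) = (φ y : E ⧸ Γ) := h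
  have h2 := QuotientGroup.eq.1 h1
  refine Quotient.sound' ?_
  rw [QuotientGroup.leftRel_apply]
  show φ (x⁻¹ * y) ∈ Γ
  rw [map_mul, map_inv]
  exact h2

theorem qmap_smul (φ : M →* E) (Γ : Subgroup E) (g : M) (x : M ⧸ Γ.comap φ) :
    qmap φ Γ (g • x) = φ g • qmap φ Γ x := by
  refine Quotient.inductionOn' x fun y => ?_
  show (φ (g * y) : E ⧸ Γ) = φ g • (φ y : E ⧸ Γ)
  rw [map_mul]
  rfl

theorem qmap_cont (φ : M →* E) (hc : Continuous φ) (Γ : Subgroup E) : Continuous (qmap φ Γ) := by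
  refine continuous_quot_lift _ ?_
  exact QuotientGroup.continuous_mk.comp hc

theorem qmap_open (φ : M →* E) (ho : IsOpenMap φ) (Γ : Subgroup E) : IsOpenMap (qmap φ Γ) := by
  intro U hU
  have e : qmap φ Γ '' U = (QuotientGroup.mk : E → E ⧸ Γ) '' (φ '' ((QuotientGroup.mk :
      M → M ⧸ Γ.comap φ) ⁻¹' U)) := by
    ext y
    constructor
    · rintro ⟨x, hx, rfl⟩
      obtain ⟨x, rfl⟩ := QuotientGroup.mk_surjective x
      exact ⟨φ x, ⟨x, hx, rfl⟩, rfl⟩
    · rintro ⟨_, ⟨x, hx, rfl⟩, rfl⟩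
      exact ⟨_, hx, rfl⟩
  rw [e]
  exact QuotientGroup.isOpenMap_coe _ (ho _ (hU.preimage QuotientGroup.continuous_mk))

/-- Invariant measures of quotients charge the open sets. -/
theorem open_pos {Γ : Subgroup E} (ν : @Measure (E ⧸ Γ) (borel (E ⧸ Γ))) (h0 : ν ≠ 0)
    (hinv : ∀ g : E, ∀ s : Set (E ⧸ Γ), MeasurableSet[borel (E ⧸ Γ)] s →
      ν ((fun x => g • x) ⁻¹' s) = ν s) (U : Set (E ⧸ Γ)) (hU : IsOpen U) (hne : U.Nonempty) :
    ν U ≠ 0 := by
  letI : MeasurableSpace (E ⧸ Γ) := borel _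
  haveI : BorelSpace (E ⧸ Γ) := ⟨rfl⟩
  intro hz
  apply h0
  rw [← Measure.measure_univ_eq_zero]
  obtain ⟨u, hu⟩ := hne
  haveI : SecondCountableTopology (E ⧸ Γ) := inferInstance
  have hcov : (⋃ g : E, (fun x : E ⧸ Γ => g • x) ⁻¹' U) = univ := by
    rw [eq_univ_iff_forall]
    intro x
    obtain ⟨x, rfl⟩ := QuotientGroup.mk_surjective x
    obtain ⟨u, rfl⟩ := QuotientGroup.mk_surjective u
    refine mem_iUnion.2 ⟨u * x⁻¹, ?_⟩
    show ((u * x⁻¹ * x : E) : E ⧸ Γ) ∈ U
    rw [inv_mul_cancel_right]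
    exact hu
  obtain ⟨T, hT, hTu⟩ := TopologicalSpace.isOpen_iUnion_countable
    (fun g : E => (fun x : E ⧸ Γ => g • x) ⁻¹' U) fun g => hU.preimage (continuous_const_smul g)
  rw [← hcov, ← hTu]
  refine (measure_biUnion_null_iff hT).2 fun g _ => ?_
  rw [hinv g U hU.measurableSet, hz]

/-- **The intersection of a lattice with an open subgroup is a lattice.** -/
theorem lat_comap (φ : M →* E) (hi : Function.Injective φ) (hc : Continuous φ) (ho : IsOpenMap φ)
    (Γ : Subgroup E) (h : IsLattice Γ) : IsLattice (Γ.comap φ) := by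
  have hd := h.disc
  obtain ⟨ν, h0, hfin, hinv⟩ := h.covol
  refine ⟨?_, ?_⟩
  · refine DiscreteTopology.of_continuous_injective (β := Γ)
      (f := fun x : Γ.comap φ => (⟨φ x, x.2⟩ : Γ)) ?_ ?_
    · exact Continuous.subtype_mk (hc.comp continuous_subtype_val) _
    · intro x y hxy
      exact Subtype.ext (hi (congrArg Subtype.val hxy))
  · letI : MeasurableSpace (E ⧸ Γ) := borel _
    haveI : BorelSpace (E ⧸ Γ) := ⟨rfl⟩
    letI : MeasurableSpace (M ⧸ Γ.comap φ) := borel _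
    haveI : BorelSpace (M ⧸ Γ.comap φ) := ⟨rfl⟩
    have hemb : IsOpenEmbedding (qmap φ Γ) :=
      .of_continuous_injective_isOpenMap (qmap_cont φ hc Γ) (qmap_inj φ Γ) (qmap_open φ ho Γ)
    have hme := hemb.measurableEmbedding
    refine ⟨ν.comap (qmap φ Γ), ?_, ?_, ?_⟩
    · intro hz
      have h1 : ν.comap (qmap φ Γ) univ = 0 := by rw [hz]; rfl
      rw [hme.comap_apply, image_univ] at h1
      exact open_pos ν h0 hinv _ hemb.isOpen_range ⟨_, ((1 : M) : M ⧸ Γ.comap φ), rfl⟩ h1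
    · rw [hme.comap_apply]
      exact (measure_mono (subset_univ _)).trans_lt hfin
    · intro g s hs
      rw [hme.comap_apply, hme.comap_apply]
      have e : qmap φ Γ '' ((fun x => g • x) ⁻¹' s) = (fun x => φ g • x) ⁻¹' (qmap φ Γ '' s) := by
        ext y
        constructor
        · rintro ⟨x, hx, rfl⟩
          exact ⟨g • x, hx, qmap_smul φ Γ g x⟩
        · rintro ⟨x, hx, he⟩
          refine ⟨g⁻¹ • x, ?_, ?_⟩
          · show g • g⁻¹ • x ∈ s
            rwa [smul_inv_smul]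
          · rw [qmap_smul, he, map_inv, inv_smul_smul]
      rw [e]
      exact hinv (φ g) _ (hme.measurableSet_image.2 hs)

end lat

end Vale.Agent.P092.VR
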