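import Vale.Agent.P092.VR.NeC
import Vale.Agent.P092.VR.TopV
import Vale.Agent.P092.VR.Ov
import Vale.Agent.P092.QCT.Final
import Vale.Agent.P092.H628.TV6

/-!
P092 (helper971), project VR: the final theorem from the blocks.
-/

set_option linter.all false

open scoped InnerProductSpace Topology ENNReal
open Filter ContinuousLinearMap MeasureTheory

namespace Vale.Agent.P092.VR

open Vale.Agent.P092.H160 (Ell2)
open Vale.Agent.P092.H103 (AF)
open Vale.Agent.P092.H515.St (IsLattice)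
open Vale.Agent.P092.SR.St (ICC SuperAll)
open Vale.Agent.P092.H962
open Vale.Agent.P092.H333.Amp
open Vale.Agent.P092.QC (QF Td MauU)
open Vale.Agent.P092.QT.NE (ev)
open Vale.Agent.P092.QCT (pi_ev ev_inj)

variable {P : Type} [Fintype P] {M E : P → Type} [∀ i, Group (M i)]
  [∀ i, TopologicalSpace (M i)] [∀ i, Group (E i)] [∀ i, TopologicalSpace (E i)]
  {φ : ∀ i, M i →* E i} {r : P → ℕ} {R : ∀ i, Subgroup (E i)}

/-- Nonvanishing at all places modulo the radicals. -/
theorem neAllV (h : ∀ i, Ov (φ i) (r i)) [∀ i, (R i).Normal] [∀ i, Finite (R i)]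
    [∀ i, LocallyCompactSpace (E i)] [∀ i, SecondCountableTopology (E i)] [∀ i, T2Space (E i)]
    [∀ i, IsTopologicalGroup (E i ⧸ R i)] [∀ i, LocallyCompactSpace (E i ⧸ R i)]
    [∀ i, SecondCountableTopology (E i ⧸ R i)] [∀ i, T2Space (E i ⧸ R i)]
    (Γ : Subgroup (∀ i, E i)) (hlat : IsLattice Γ) (hd : ∀ i, DenseRange (ev Γ i)) (hicc : ICC Γ)
    (hE : ErgAllT fun i => (QuotientGroup.mk' (R i)).comp (ev Γ i))
    [∀ i, MeasurableSpace (E i ⧸ R i)] [∀ i, BorelSpace (E i ⧸ R i)]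
    (μ : ∀ i, Measure (E i ⧸ R i)) [∀ i, (μ i).IsHaarMeasure] [∀ i, (μ i).IsMulRightInvariant] :
    NeAllT (fun i => (QuotientGroup.mk' (R i)).comp (ev Γ i)) μ := by
  have a0 := fun i => (h i).qf.top
  have a1 := fun i => (h i).qf.lc
  have a2 := fun i => (h i).qf.sc
  have a3 := fun i => (h i).qf.t2
  have b0 := fun i => (h i).top
  letI : ∀ i, MeasurableSpace (M i) := fun i => borel _
  haveI : ∀ i, BorelSpace (M i) := fun i => ⟨rfl⟩
  intro Λ _ _ I _ α hα hΛ i β hβ
  obtain ⟨m, m', ξ, hT⟩ := exists_tri hα hα hβ hΛ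
  obtain ⟨n, n', ξ', hT'⟩ := exists_tri' hα hα hβ hΛ
  choose C hCh using fun i => (h i).qf.chn
  exact neC_over (fun i => (h i).inj) (fun i => (h i).cont) (fun i => (h i).opn)
    (fun i => (h i).normal) (fun i => (h i).fin)
    (⟨hlat.disc, hlat.covol⟩ : H515.IsLattice Γ) hicc hT hT' C
    (fun i => (h i).qf.pos) (fun i => (h i).qf.tgt)
    (fun i => MauU.of (h i).qf.hmg (hCh i (h i).qf.pos)) (fun i => QuotientGroup.mk' (R i))
    (fun i => continuous_quotient_mk') μ i (hd i) (R i)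
    (hE Λ I α hα hΛ i β hβ)

end Vale.Agent.P092.VR
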