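import Vale.Agent.P092.QT.NE.NeC

/-!
P092 (helper971), project VR: the restriction of a Parseval frame to a subgroup of finite index.
-/

set_option linter.all false

open scoped InnerProductSpace Topology
open Filter ContinuousLinearMap MeasureTheory

namespace Vale.Agent.P092.VR

open Vale.Agent.P092.H761 (PF massT)
open Vale.Agent.P092.H538 (ind)

/-- A transversal of an injective homomorphism with range of finite index. -/
theorem exists_trans {A A' : Type} [Group A] [Group A'] (j : A' →* A) (hj : Function.Injective j)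
    [hf : j.range.FiniteIndex] :
    ∃ (T : Type) (_ : Fintype T) (t : T → A), Function.Bijective fun z : A' × T => j z.1 * t z.2 := by
  classical
  obtain ⟨T, hT, -⟩ := j.range.exists_isComplement_right 1
  haveI : Finite T := hT.finite_right_iff.2 hf
  refine ⟨T, Fintype.ofFinite T, fun t => (t : A), ?_, ?_⟩
  · rintro ⟨a, s⟩ ⟨b, u⟩ h
    have h1 := hT.1 (a₁ := ((⟨j a, a, rfl⟩ : j.range), s)) (a₂ := ((⟨j b, b, rfl⟩ : j.range), u)) h
    have h2 := congrArg (fun z => ((z.1 : j.range) : A)) h1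
    have h3 := congrArg Prod.snd h1
    exact Prod.ext (hj h2) h3
  · intro x
    obtain ⟨⟨⟨_, a, rfl⟩, s⟩, h⟩ := hT.2 x
    exact ⟨(a, s), h⟩

section res

variable {A A' B ι T ℋ : Type} [Group A] [Group A'] [Group B] [NormedAddCommGroup ℋ]
  [InnerProductSpace ℂ ℋ] [CompleteSpace ℋ] {S : A →* (ℋ →L[ℂ] ℋ)} {S' : B →* (ℋ →L[ℂ] ℋ)}
  {ξ : ι → ℋ} {j : A' →* A} {t : T → A}

theorem mul_ap (S : A →* (ℋ →L[ℂ] ℋ)) (a b : A) (v : ℋ) : S (a * b) v = S a (S b v) := by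
  rw [map_mul]; rfl

/-- **The restricted frame.** -/
theorem pf_res (h : PF S S' ξ) (hc : ∀ a b, S a * S' b = S' b * S a)
    (ht : Function.Bijective fun z : A' × T => j z.1 * t z.2) :
    PF (S.comp j) S' (fun z : T × ι => S (t z.1) (ξ z.2)) := by
  intro η
  let e : (A' × B) × (T × ι) ≃ (A × B) × ι :=
    Equiv.ofBijective (fun x => ((j x.1.1 * t x.2.1, x.1.2), x.2.2)) (by
      constructor
      · rintro ⟨⟨a, b⟩, s, k⟩ ⟨⟨a', b'⟩, s', k'⟩ hx
        have h1 : j a * t s = j a' * t s' := congrArg (fun x => x.1.1) hx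
        have h2 : b = b' := congrArg (fun x => x.1.2) hx
        have h3 : k = k' := congrArg (fun x => x.2) hx
        have h4 := ht.1 (a₁ := (a, s)) (a₂ := (a', s')) h1
        have h5 : a = a' := congrArg Prod.fst h4
        have h6 : s = s' := congrArg Prod.snd h4
        subst h2 h3 h5 h6
        rfl
      · rintro ⟨⟨a, b⟩, k⟩
        obtain ⟨⟨a', s⟩, hz⟩ := ht.2 a
        have hz' : j a' * t s = a := hz
        exact ⟨((a', b), (s, k)), by rw [← hz']⟩)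
  have h1 := (e.hasSum_iff (f := fun x : (A × B) × ι => ‖⟪S x.1.1 (S' x.1.2 (ξ x.2)), η⟫_ℂ‖ ^ 2)).2
    (h η)
  have e1 : (fun x : (A × B) × ι => ‖⟪S x.1.1 (S' x.1.2 (ξ x.2)), η⟫_ℂ‖ ^ 2) ∘ e =
      fun x : (A' × B) × (T × ι) =>
        ‖⟪(S.comp j) x.1.1 (S' x.1.2 (S (t x.2.1) (ξ x.2.2))), η⟫_ℂ‖ ^ 2 := by
    funext x
    show ‖⟪S (j x.1.1 * t x.2.1) (S' x.1.2 (ξ x.2.2)), η⟫_ℂ‖ ^ 2 =
      ‖⟪S (j x.1.1) (S' x.1.2 (S (t x.2.1) (ξ x.2.2))), η⟫_ℂ‖ ^ 2
    have h2 : S' x.1.2 (S (t x.2.1) (ξ x.2.2)) = S (t x.2.1) (S' x.1.2 (ξ x.2.2)) := by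
      have h3 := congrArg (fun L : ℋ →L[ℂ] ℋ => L (ξ x.2.2)) (hc (t x.2.1) x.1.2)
      exact h3.symm
    rw [h2, mul_ap]
  rw [e1] at h1
  exact h1

end res

section tr

variable {A ι T ℋ : Type} [Group A] [NormedAddCommGroup ℋ] [Fintype ι] [Fintype T]
  [InnerProductSpace ℂ ℋ] [CompleteSpace ℋ] {S : A →* (ℋ →L[ℂ] ℋ)} {ξ : ι → ℋ} {t : T → A}

theorem inner_move (hS : ∀ a, adjoint (S a) = S a⁻¹) (a : A) (u v : ℋ) :
    ⟪u, S a v⟫_ℂ = ⟪S a⁻¹ u, v⟫_ℂ := by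
  rw [← hS, adjoint_inner_left]

/-- The trace of the enlarged family. -/
theorem tr_res (hS : ∀ a, adjoint (S a) = S a⁻¹) {X : ℋ →L[ℂ] ℋ} (hX : ∀ a, X * S a = S a * X)
    (h0 : ∑ k, ⟪ξ k, X (ξ k)⟫_ℂ = 0) :
    ∑ z : T × ι, ⟪S (t z.1) (ξ z.2), X (S (t z.1) (ξ z.2))⟫_ℂ = 0 := by
  rw [Fintype.sum_prod_type]
  refine Finset.sum_eq_zero fun s _ => ?_
  rw [← h0]
  refine Finset.sum_congr rfl fun k _ => ?_
  have h1 : X (S (t s) (ξ k)) = S (t s) (X (ξ k)) :=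
    congrArg (fun L : ℋ →L[ℂ] ℋ => L (ξ k)) (hX (t s))
  rw [h1, inner_move hS, ← mul_ap, inv_mul_cancel, map_one]
  rfl

end tr

section mass

variable {A A' B ι T ℋ Λ Λ' : Type} [Group A] [Group A'] [Group B] [Group Λ] [Group Λ']
  [NormedAddCommGroup ℋ] [Fintype ι] [Fintype T]
  [InnerProductSpace ℂ ℋ] [CompleteSpace ℋ] {S : A →* (ℋ →L[ℂ] ℋ)} {S' : B →* (ℋ →L[ℂ] ℋ)}
  {V : Λ →* (ℋ →L[ℂ] ℋ)} {ξ : ι → ℋ} {j : A' →* A} {i : Λ' →* Λ} {t : T → A}

/-- The terms of the mass are summable. -/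
theorem summable_mass (h : PF S S' ξ) (η : ℋ) (P : A → Prop) :
    Summable fun x : (A × B) × ι => ind (fun x : (A × B) × ι => P x.1.1) x *
      ‖⟪S x.1.1 (S' x.1.2 (ξ x.2)), η⟫_ℂ‖ ^ 2 := by
  classical
  refine Summable.of_nonneg_of_le (fun x => mul_nonneg (H538.ind_nonneg _ _) (sq_nonneg _))
    (fun x => ?_) (h η).summable
  refine mul_le_of_le_one_left (sq_nonneg _) ?_
  unfold ind
  split_ifs <;> norm_num

/-- **The masses of the restricted frame** are bounded by those of the frame. -/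
theorem mass_res (h : PF S S' ξ) (hc : ∀ a b, S a * S' b = S' b * S a)
    (hS : ∀ a, adjoint (S a) = S a⁻¹) (hV : ∀ v a, V v * S a = S a * V v)
    (ht : Function.Bijective fun z : A' × T => j z.1 * t z.2) (v : Λ') (P' : A' → Prop)
    (P : A → Prop) (hP : ∀ a s u, P' a → P ((t s)⁻¹ * (j a * t u))) :
    massT (V.comp i) (S.comp j) S' (fun z : T × ι => S (t z.1) (ξ z.2)) v P' ≤
      Fintype.card T * massT V S S' ξ (i v) P := by
  classical
  unfold massT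
  rw [Fintype.sum_prod_type]
  have key : ∀ s : T, ∑ k, ∑' x : (A' × B) × (T × ι),
      ind (fun x : (A' × B) × (T × ι) => P' x.1.1) x *
        ‖⟪(S.comp j) x.1.1 (S' x.1.2 (S (t x.2.1) (ξ x.2.2))),
          (V.comp i) v (S (t s) (ξ k))⟫_ℂ‖ ^ 2 ≤
      ∑ k, ∑' x : (A × B) × ι, ind (fun x : (A × B) × ι => P x.1.1) x *
        ‖⟪S x.1.1 (S' x.1.2 (ξ x.2)), V (i v) (ξ k)⟫_ℂ‖ ^ 2 := by
    intro s
    refine Finset.sum_le_sum fun k _ => ?_
    let e : (A' × B) × (T × ι) ≃ (A × B) × ι :=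
      Equiv.ofBijective (fun x => (((t s)⁻¹ * (j x.1.1 * t x.2.1), x.1.2), x.2.2)) (by
        constructor
        · rintro ⟨⟨a, b⟩, s', k⟩ ⟨⟨a', b'⟩, s'', k'⟩ hx
          have h1 : (t s)⁻¹ * (j a * t s') = (t s)⁻¹ * (j a' * t s'') :=
            congrArg (fun x => x.1.1) hx
          have h2 : b = b' := congrArg (fun x => x.1.2) hx
          have h3 : k = k' := congrArg (fun x => x.2) hx
          have h4 := ht.1 (a₁ := (a, s')) (a₂ := (a', s'')) (mul_left_cancel h1)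
          have h5 : a = a' := congrArg Prod.fst h4
          have h6 : s' = s'' := congrArg Prod.snd h4
          subst h2 h3 h5 h6
          rfl
        · rintro ⟨⟨a, b⟩, k⟩
          obtain ⟨⟨a', s'⟩, hz⟩ := ht.2 (t s * a)
          have hz' : j a' * t s' = t s * a := hz
          refine ⟨((a', b), (s', k)), ?_⟩
          show (((t s)⁻¹ * (j a' * t s'), b), k) = ((a, b), k)
          rw [hz', inv_mul_cancel_left])
    have e1 : ∀ x : (A' × B) × (T × ι), ‖⟪(S.comp j) x.1.1 (S' x.1.2 (S (t x.2.1) (ξ x.2.2))),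
        (V.comp i) v (S (t s) (ξ k))⟫_ℂ‖ ^ 2 =
        ‖⟪S (e x).1.1 (S' (e x).1.2 (ξ (e x).2)), V (i v) (ξ k)⟫_ℂ‖ ^ 2 := by
      intro x
      show ‖⟪S (j x.1.1) (S' x.1.2 (S (t x.2.1) (ξ x.2.2))), V (i v) (S (t s) (ξ k))⟫_ℂ‖ ^ 2 =
        ‖⟪S ((t s)⁻¹ * (j x.1.1 * t x.2.1)) (S' x.1.2 (ξ x.2.2)), V (i v) (ξ k)⟫_ℂ‖ ^ 2
      have h2 : S' x.1.2 (S (t x.2.1) (ξ x.2.2)) = S (t x.2.1) (S' x.1.2 (ξ x.2.2)) :=
        (congrArg (fun L : ℋ →L[ℂ] ℋ => L (ξ x.2.2)) (hc (t x.2.1) x.1.2)).symm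
      have h3 : V (i v) (S (t s) (ξ k)) = S (t s) (V (i v) (ξ k)) :=
        congrArg (fun L : ℋ →L[ℂ] ℋ => L (ξ k)) (hV (i v) (t s))
      rw [h2, h3, inner_move hS, ← mul_ap, ← mul_ap, mul_assoc]
    have hs := summable_mass (B := B) h (V (i v) (ξ k)) P
    have hs' := (e.summable_iff).2 hs
    rw [← e.tsum_eq]
    refine Summable.tsum_le_tsum (fun x => ?_) ?_ hs'
    · rw [e1]
      refine mul_le_mul_of_nonneg_right ?_ (sq_nonneg _)
      unfold ind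
      by_cases hx : P' x.1.1
      · have hx' : P (e x).1.1 := hP x.1.1 s x.2.1 hx
        show (if P' x.1.1 then (1 : ℝ) else 0) ≤ if P (e x).1.1 then 1 else 0
        rw [if_pos hx, if_pos hx']
      · rw [if_neg hx]
        split_ifs <;> norm_num
    · refine Summable.of_nonneg_of_le (fun x => mul_nonneg (H538.ind_nonneg _ _) (sq_nonneg _))
        (fun x => ?_) ((e.summable_iff).2 (h (V (i v) (ξ k))).summable)
      rw [e1]
      refine mul_le_of_le_one_left (sq_nonneg _) ?_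
      unfold ind
      split_ifs <;> norm_num
  refine (Finset.sum_le_sum fun s _ => key s).trans (le_of_eq ?_)
  rw [Finset.sum_const, Finset.card_univ, nsmul_eq_mul]

end mass

end Vale.Agent.P092.VR
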