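import Vale.Agent.P092.QCT.Ne
import Vale.Agent.P092.VR.Lat
import Vale.Agent.P092.VR.Res

/-!
P092 (helper971), project VR: nonvanishing for overgroups of finite index; the engine for the
intersection with the product of the factors.
-/

set_option linter.all false

open scoped InnerProductSpace Topology ENNReal
open Filter ContinuousLinearMap MeasureTheory

namespace Vale.Agent.P092.VR

open Vale.Agent.P092.QT.NE
open Vale.Agent.P092.H333.Amp
open Vale.Agent.P092.H739 (exists_piChain)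
open Vale.Agent.P092.H761 (PF massT)
open Vale.Agent.P092.QT.H156.Sm (Frm Smo)
open Vale.Agent.P092.SR (Tri)

section inc

variable {I : Type} {M E : I → Type} [∀ i, Group (M i)] [∀ i, Group (E i)]

/-- The inclusion of the product. -/
def inc (φ : ∀ i, M i →* E i) : (∀ i, M i) →* ∀ i, E i :=
  MonoidHom.pi fun i => (φ i).comp (Pi.evalMonoidHom M i)

/-- The intersection with the product. -/
abbrev gp (φ : ∀ i, M i →* E i) (Γ : Subgroup (∀ i, E i)) : Subgroup (∀ i, M i) := Γ.comap (inc φ)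

/-- The inclusion of the intersection. -/
def jm (φ : ∀ i, M i →* E i) (Γ : Subgroup (∀ i, E i)) : gp φ Γ →* Γ :=
  ((inc φ).comp (gp φ Γ).subtype).codRestrict Γ fun x => x.2

variable {φ : ∀ i, M i →* E i} {Γ : Subgroup (∀ i, E i)}

theorem ev_jm (i : I) (g : gp φ Γ) : ev Γ i (jm φ Γ g) = φ i (ev (gp φ Γ) i g) := rfl

theorem inc_inj (hi : ∀ i, Function.Injective (φ i)) : Function.Injective (inc φ) := by
  intro x y h
  funext i
  exact hi i (congrFun h i)

theorem jm_inj (hi : ∀ i, Function.Injective (φ i)) : Function.Injective (jm φ Γ) := by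
  intro x y h
  exact Subtype.ext (inc_inj hi (congrArg Subtype.val h))

theorem mem_jm {g : Γ} : g ∈ (jm φ Γ).range ↔ ∀ i, ev Γ i g ∈ (φ i).range := by
  constructor
  · rintro ⟨x, rfl⟩ i
    exact ⟨_, rfl⟩
  · intro h
    choose y hy using h
    have hy' : inc φ y = g.1 := funext hy
    exact ⟨⟨y, by
      show inc φ y ∈ Γ
      rw [hy']
      exact g.2⟩, Subtype.ext hy'⟩

theorem jm_range : (jm φ Γ).range = ⨅ i, (φ i).range.comap (ev Γ i) := by
  ext g
  rw [mem_jm, Subgroup.mem_iInf]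
  rfl

theorem jm_fin [Finite I] (hf : ∀ i, (φ i).range.FiniteIndex) : (jm φ Γ).range.FiniteIndex := by
  rw [jm_range]
  have : ∀ i, ((φ i).range.comap (ev Γ i)).FiniteIndex := fun i => by
    haveI := hf i
    refine ⟨?_⟩
    rw [Subgroup.index_comap]
    exact (Subgroup.instFiniteIndex_subgroupOf (φ i).range (ev Γ i).range).index_ne_zero
  exact Subgroup.finiteIndex_iInf this

theorem jm_normal (hn : ∀ i, (φ i).range.Normal) : (jm φ Γ).range.Normal := by
  rw [jm_range]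
  exact Subgroup.normal_iInf_normal fun i => (hn i).comap _

end inc

section frm

variable {X Λ Λ' K : Type} [Group X] [Group Λ] [Group Λ'] [NormedAddCommGroup K]
  [InnerProductSpace ℂ K] [CompleteSpace K] {ρ : X →* (K →L[ℂ] K)} {V : Λ →* (K →L[ℂ] K)} {ω : K}

theorem frm_comp (h : Frm ρ V ω) {j : Λ' →* Λ} (hj : Function.Injective j) :
    Frm ρ (V.comp j) ω where
  reg := h.reg
  adj v := by
    show adjoint (V (j v)) = V (j v⁻¹)
    rw [h.adj, map_inv j]
  comm v := h.comm (j v)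
  ort v hv := h.ort (j v) fun e => hv (hj (by rw [e, map_one]))

end frm

section gen

variable {I : Type} [Fintype I] {M E : I → Type} [∀ i, Group (M i)]
  [∀ i, TopologicalSpace (M i)] [∀ i, IsTopologicalGroup (M i)] [∀ i, LocallyCompactSpace (M i)]
  [∀ i, SecondCountableTopology (M i)] [∀ i, T2Space (M i)] [∀ i, MeasurableSpace (M i)]
  [∀ i, BorelSpace (M i)] [∀ i, Group (E i)]
  [∀ i, TopologicalSpace (E i)] [∀ i, IsTopologicalGroup (E i)]
  {Γ : Subgroup (∀ i, E i)} {φ : ∀ i, M i →* E i}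

/-- **The engine for overgroups.** -/
theorem ne_pre (hi : ∀ i, Function.Injective (φ i)) (hcφ : ∀ i, Continuous (φ i))
    (hfφ : ∀ i, (φ i).range.FiniteIndex) [Countable Γ]
    [DiscreteTopology (gp φ Γ)] [MeasurableSpace ((∀ i, M i) ⧸ gp φ Γ)]
    [BorelSpace ((∀ i, M i) ⧸ gp φ Γ)] {ν : Measure ((∀ i, M i) ⧸ gp φ Γ)}
    [IsProbabilityMeasure ν]
    (hν : ∀ g : ∀ i, M i, ν.map (fun x => g • x) = ν)
    {κ κ' ℋ : Type} [Fintype κ] [Fintype κ'] [NormedAddCommGroup ℋ] [InnerProductSpace ℂ ℋ]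
    [CompleteSpace ℋ] {V A B : Γ →* (ℋ →L[ℂ] ℋ)} {ξ : κ → ℋ} {ξ' : κ' → ℋ}
    (hT : Tri V A B ξ) (h' : PF V B ξ')
    (htr : ∀ v, v ≠ 1 → ∑ k, ⟪ξ k, V v (ξ k)⟫_ℂ = 0) {Q : Type} [Group Q] [Fintype Q]
    {ω : KT Q ℋ} (hF : Frm (rt Q (pr A B hT.comm₁₂)) (av Q V) ω) {c : ℝ} (hc : 0 < c)
    (hω : ∀ T : ℋ →L[ℂ] ℋ, ⟪ω, amp T ω⟫_ℂ = (c : ℂ) * ∑ k, ⟪ξ k, T (ξ k)⟫_ℂ) {m : I → ℕ}
    (C : ∀ i, H701.HChain (M i) (m i)) (hm : ∀ i, 0 < m i) (hG : ∀ i, H515.Tgt (M i) (m i))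
    (hM : ∀ i, QC.MauU (M i) ((C i).b ⟨0, hm i⟩)) {P : I → Type} [∀ j, Group (P j)]
    [∀ j, TopologicalSpace (P j)] [∀ j, IsTopologicalGroup (P j)]
    [∀ j, LocallyCompactSpace (P j)] [∀ j, SecondCountableTopology (P j)] [∀ j, T2Space (P j)]
    [∀ j, MeasurableSpace (P j)] [∀ j, BorelSpace (P j)] (π : ∀ j, E j →* P j)
    (hπ : ∀ j, Continuous (π j)) (μ : ∀ j, Measure (P j)) [∀ j, (μ j).IsHaarMeasure]
    [∀ j, (μ j).IsMulRightInvariant] (i : I) :
    ∃ j, ∃ b, Smo (((π j).comp (ev Γ j)).comp (lf Γ Q false)) (ev (gp φ Γ) i)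
      (rt Q (pr A B hT.comm₁₂)) ((av Q V).comp (jm φ Γ)) ω (μ j) b ∧ b ≠ 0 := by
  classical
  haveI : Countable (gp φ Γ) := H790.countable_of_discrete (gp φ Γ)
  haveI : Nonempty I := ⟨i⟩
  haveI := jm_fin (Γ := Γ) hfφ
  have hj := jm_inj (Γ := Γ) hi
  obtain ⟨T, _, t, ht⟩ := exists_trans (jm φ Γ) hj
  have h := pf_res (j := jm φ Γ) (pf_tri hT) hT.comm₁₂ ht
  have h'' := pf_res (j := jm φ Γ) h' hT.comm₂ ht
  have htr' : ∀ v : gp φ Γ, v ≠ 1 →
      ∑ z : T × κ, ⟪A (t z.1) (ξ z.2), (V.comp (jm φ Γ)) v (A (t z.1) (ξ z.2))⟫_ℂ = 0 := by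
    intro v hv
    refine tr_res hT.adj₁ (X := V (jm φ Γ v)) (fun a => hT.comm₁ _ a) (htr _ fun e => ?_)
    exact hv (hj (by rw [e, map_one]))
  have hne : ∃ z : T × κ, A (t z.1) (ξ z.2) ≠ 0 := by
    obtain ⟨k, hk⟩ := hT.ne
    obtain ⟨⟨a, s⟩, -⟩ := ht.2 1
    refine ⟨(s, k), fun h0 => hk ?_⟩
    have h1 : A (t s)⁻¹ (A (t s) (ξ k)) = ξ k := by
      rw [← mul_ap, inv_mul_cancel, map_one]
      rfl
    rw [← h1]
    show A (t s)⁻¹ (A (t s) (ξ k)) = 0
    rw [show A (t s) (ξ k) = 0 from h0, map_zero]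
  obtain ⟨D, hD⟩ := exists_piChain C hm (Finset.univ.erase i)
  have hI : 0 < Fintype.card I := Fintype.card_pos
  have hcard : (Finset.univ.erase i).card < Fintype.card I := by
    rw [Finset.card_erase_of_mem (Finset.mem_univ i), Finset.card_univ]
    omega
  have hle : (Finset.univ.erase i).card ≤ ∑ j, m j := by
    rw [Finset.card_eq_sum_ones]
    exact (Finset.sum_le_sum fun j _ => hm j).trans
      (Finset.sum_le_sum_of_subset (Finset.subset_univ _))
  have hφ : ∀ K : ∀ j, Set (M j), (∀ j, IsCompact (K j)) →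
      {x : gp φ Γ | ∀ j, ev (gp φ Γ) j x ∈ K j}.Finite := fun K hK => by
    refine (H790.finite_inter (gp φ Γ) (isCompact_univ_pi hK)).subset fun x hx => ?_
    exact fun j _ => hx j
  obtain ⟨j, s, K, c', hs, hK, hc', h3⟩ := H793.eng_r (gp φ Γ) ν hν h h''
    (fun a b => hT.comm₁₂ _ b) (fun a => by
      show adjoint (A (jm φ Γ a)) = A (jm φ Γ a⁻¹)
      rw [hT.adj₁, map_inv (jm φ Γ)]) hT.adj₂
    (fun v => by
      show adjoint (V (jm φ Γ v)) = V (jm φ Γ v⁻¹)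
      rw [hT.adjV, map_inv (jm φ Γ)]) (fun v a => hT.comm₁ _ _) (fun v b => hT.comm₂ _ b) hne htr' D hle
    hcard hG le_rfl (fun j => ev (gp φ Γ) j) hφ _
    (fun N => hD fun _ => N)
  obtain ⟨b, hb⟩ : ∃ b : ℕ → ∀ j : {j // j ≠ i}, M j,
      b = fun N (j : {j // j ≠ i}) => (C j.1).b ⟨0, hm j.1⟩ (s N) := ⟨_, rfl⟩
  have hHM : H264.HMSeq (∀ j : {j // j ≠ i}, M j) b := by
    rw [hb]
    exact ((QC.mauU_pi fun j : {j // j ≠ i} => hM j).comp hs.tendsto_atTop).hmSeq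
  have he : ∀ N, (fun j => if j ∈ Finset.univ.erase i then (C j).b ⟨0, hm j⟩ (s N) else 1) =
      spl M i (1, b N) := by
    intro N
    funext j
    by_cases hj : j = i
    · subst hj
      rw [spl_self, if_neg (Finset.notMem_erase _ _)]
    · rw [spl_ne hj, if_pos (Finset.mem_erase.2 ⟨hj, Finset.mem_univ _⟩), hb]
  -- the compact set of the overgroup
  obtain ⟨K', hK'⟩ : ∃ K' : Set (E j), K' = ⋃ z : T × T,
      (fun x => (ev Γ j (t z.1))⁻¹ * (φ j x * ev Γ j (t z.2))) '' K := ⟨_, rfl⟩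
  have hK'c : IsCompact K' := by
    rw [hK']
    refine isCompact_iUnion fun z => hK.image ?_
    have := hcφ j
    fun_prop
  have hT0 : (0 : ℝ) < Fintype.card T := by
    obtain ⟨⟨a, s⟩, -⟩ := ht.2 1
    haveI : Nonempty T := ⟨s⟩
    exact_mod_cast Fintype.card_pos
  have hCC : (0 : ℝ) < 2 ^ Fintype.card Q * c ^ 2 := by positivity
  have hF' := frm_comp hF hj
  have h5 : ∀ v : gp φ Γ, H264.ms (rt Q (pr A B hT.comm₁₂)) ((av Q V).comp (jm φ Γ)) ω
      (fun x => ev Γ j (lf Γ Q false x) ∈ K') v =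
      2 ^ Fintype.card Q * c ^ 2 * massT V A B ξ (jm φ Γ v) (fun g => ev Γ j g ∈ K') := fun v =>
    ms_eq hT hF hω (jm φ Γ v) fun g => ev Γ j g ∈ K'
  have h6 : ∀ v : gp φ Γ, massT (V.comp (jm φ Γ)) (A.comp (jm φ Γ)) B
      (fun z : T × κ => A (t z.1) (ξ z.2)) v (fun g => ev (gp φ Γ) j g ∈ K) ≤
      Fintype.card T * massT V A B ξ (jm φ Γ v) (fun g => ev Γ j g ∈ K') := by
    intro v
    refine mass_res (pf_tri hT) hT.comm₁₂ hT.adj₁ (fun v a => hT.comm₁ v a) ht v _ _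
      fun a s u ha => ?_
    rw [hK']
    refine Set.mem_iUnion.2 ⟨(s, u), _, ha, ?_⟩
    rw [map_mul, map_mul, map_inv]
    rfl
  obtain ⟨f, hf, hf1⟩ := QT.H264.s2_core hν hF' (((π j).comp (ev Γ j)).comp (lf Γ Q false)) (μ j)
    (spl M i) (continuous_spl i) hHM (hK'c.image (hπ j))
    (mul_pos hCC (div_pos hc' hT0)) fun N => by
    refine le_trans ?_ (QT.H264.ams_mono hF' (P := fun x => ev Γ j (lf Γ Q false x) ∈ K')
      (fun x hx => ⟨_, hx, rfl⟩) _)
    have h4 := h3 N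
    rw [he] at h4
    rw [mul_div_assoc', div_le_iff₀ hT0]
    calc 2 ^ Fintype.card Q * c ^ 2 * c' ≤ 2 ^ Fintype.card Q * c ^ 2 *
          ∫ x, massT (V.comp (jm φ Γ)) (A.comp (jm φ Γ)) B
            (fun z : T × κ => A (t z.1) (ξ z.2)) (H85.coc (gp φ Γ) (spl M i (1, b N)) x)
            (fun g => ev (gp φ Γ) j g ∈ K) ∂ν := mul_le_mul_of_nonneg_left h4 hCC.le
      _ = ∫ x, 2 ^ Fintype.card Q * c ^ 2 * massT (V.comp (jm φ Γ)) (A.comp (jm φ Γ)) B
            (fun z : T × κ => A (t z.1) (ξ z.2)) (H85.coc (gp φ Γ) (spl M i (1, b N)) x)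
            (fun g => ev (gp φ Γ) j g ∈ K) ∂ν := (integral_const_mul _ _).symm
      _ ≤ ∫ x, Fintype.card T * H264.ms (rt Q (pr A B hT.comm₁₂)) ((av Q V).comp (jm φ Γ)) ω
            (fun x => ev Γ j (lf Γ Q false x) ∈ K') (H85.coc (gp φ Γ) (spl M i (1, b N)) x)
            ∂ν := by
          refine integral_mono_of_nonneg (Eventually.of_forall fun x => ?_)
            ((QT.H264.integrable_ms hF' _ _).const_mul _) (Eventually.of_forall fun x => ?_)
          · refine mul_nonneg hCC.le ?_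
            unfold massT
            exact Finset.sum_nonneg fun k _ => tsum_nonneg fun x =>
              mul_nonneg (H538.ind_nonneg _ _) (sq_nonneg _)
          · show 2 ^ Fintype.card Q * c ^ 2 * massT (V.comp (jm φ Γ)) (A.comp (jm φ Γ)) B
              (fun z : T × κ => A (t z.1) (ξ z.2)) (H85.coc (gp φ Γ) (spl M i (1, b N)) x)
              (fun g => ev (gp φ Γ) j g ∈ K) ≤ Fintype.card T *
              H264.ms (rt Q (pr A B hT.comm₁₂)) ((av Q V).comp (jm φ Γ)) ω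
              (fun x => ev Γ j (lf Γ Q false x) ∈ K') (H85.coc (gp φ Γ) (spl M i (1, b N)) x)
            rw [h5]
            calc _ ≤ 2 ^ Fintype.card Q * c ^ 2 * (Fintype.card T * massT V A B ξ
                  (jm φ Γ (H85.coc (gp φ Γ) (spl M i (1, b N)) x))
                  (fun g => ev Γ j g ∈ K')) := mul_le_mul_of_nonneg_left (h6 _) hCC.le
              _ = _ := by ring
      _ = (∫ x, H264.ms (rt Q (pr A B hT.comm₁₂)) ((av Q V).comp (jm φ Γ)) ω
            (fun x => ev Γ j (lf Γ Q false x) ∈ K') (H85.coc (gp φ Γ) (spl M i (1, b N)) x)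
            ∂ν) * Fintype.card T := by rw [integral_const_mul, mul_comm]
  exact ⟨j, f, hf, fun h2 => hf1 (by rw [h2]; rfl)⟩

end gen

end Vale.Agent.P092.VR
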