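import Vale.Agent.P092.VR.Ne
import Vale.Agent.P092.H333.V.SmoOv

/-!
P092 (helper971), project VR: nonvanishing for overgroups of finite index.
-/

set_option linter.all false

open scoped InnerProductSpace Topology ENNReal
open Filter ContinuousLinearMap MeasureTheory

namespace Vale.Agent.P092.VR

open Vale.Agent.P092.QT.NE
open Vale.Agent.P092.H333.Amp
open Vale.Agent.P092.H761 (PF massT)
open Vale.Agent.P092.QT.H156.Sm (Frm Smo)
open Vale.Agent.P092.SR (Tri)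

section gen

variable {I : Type} [Fintype I] {M E : I → Type} [∀ i, Group (M i)]
  [∀ i, TopologicalSpace (M i)] [∀ i, IsTopologicalGroup (M i)] [∀ i, LocallyCompactSpace (M i)]
  [∀ i, SecondCountableTopology (M i)] [∀ i, T2Space (M i)] [∀ i, MeasurableSpace (M i)]
  [∀ i, BorelSpace (M i)] [∀ i, Group (E i)]
  [∀ i, TopologicalSpace (E i)] [∀ i, IsTopologicalGroup (E i)] [∀ i, LocallyCompactSpace (E i)]
  [∀ i, SecondCountableTopology (E i)] [∀ i, T2Space (E i)]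
  {Γ : Subgroup (∀ i, E i)} {φ : ∀ i, M i →* E i}
  {κ κ' ℋ : Type} [Fintype κ] [Fintype κ'] [NormedAddCommGroup ℋ] [InnerProductSpace ℂ ℋ]
  [CompleteSpace ℋ] {V A B : Γ →* (ℋ →L[ℂ] ℋ)} {ξ : κ → ℋ} {ξ' : κ' → ℋ}
  {P : I → Type} [∀ j, Group (P j)]
  [∀ j, TopologicalSpace (P j)] [∀ j, IsTopologicalGroup (P j)]
  [∀ j, LocallyCompactSpace (P j)] [∀ j, SecondCountableTopology (P j)] [∀ j, T2Space (P j)]
  [∀ j, MeasurableSpace (P j)] [∀ j, BorelSpace (P j)]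

theorem inc_cont (hcφ : ∀ i, Continuous (φ i)) : Continuous (inc φ) :=
  continuous_pi fun i => (hcφ i).comp (continuous_apply i)

theorem inc_open (hoφ : ∀ i, IsOpenMap (φ i)) : IsOpenMap (inc φ) := by
  refine IsOpenMap.piMap (f := fun i => (φ i : M i → E i)) hoφ ?_
  rw [Filter.cofinite_eq_bot]
  exact Filter.eventually_bot

/-- **Nonvanishing for overgroups**, on `ℋ`. -/
theorem neC_over (hi : ∀ i, Function.Injective (φ i)) (hcφ : ∀ i, Continuous (φ i))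
    (hoφ : ∀ i, IsOpenMap (φ i)) (hnφ : ∀ i, (φ i).range.Normal)
    (hfφ : ∀ i, (φ i).range.FiniteIndex) (hΓ : H515.IsLattice Γ)
    (hicc : ∀ g : Γ, g ≠ 1 → Set.Infinite {y : Γ | ∃ h, y = h * g * h⁻¹})
    (hT : Tri V A B ξ) (hT' : Tri A V B ξ') {m : I → ℕ}
    (C : ∀ i, H701.HChain (M i) (m i)) (hm : ∀ i, 0 < m i) (hG : ∀ i, H515.Tgt (M i) (m i))
    (hM : ∀ i, QC.MauU (M i) ((C i).b ⟨0, hm i⟩)) (π : ∀ j, E j →* P j)
    (hπ : ∀ j, Continuous (π j)) (μ : ∀ j, Measure (P j)) [∀ j, (μ j).IsHaarMeasure]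
    [∀ j, (μ j).IsMulRightInvariant] (i : I) (hd : DenseRange (ev Γ i)) (Z : Subgroup (E i))
    [Z.Normal] [Finite Z] (hE : ErgC ((QuotientGroup.mk' Z).comp (ev Γ i)) V A B) :
    ∃ j, NeC ((π j).comp (ev Γ j)) ((QuotientGroup.mk' Z).comp (ev Γ i)) V A B (μ j) := by
  classical
  haveI := hΓ.disc
  haveI : Countable Γ := H790.countable_of_discrete Γ
  have hΓ' : H515.IsLattice (gp φ Γ) := lat_comap (inc φ) (inc_inj hi) (inc_cont hcφ)
    (inc_open hoφ) Γ hΓ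
  haveI := hΓ'.disc
  letI : MeasurableSpace ((∀ j, M j) ⧸ gp φ Γ) := borel _
  haveI : BorelSpace ((∀ j, M j) ⧸ gp φ Γ) := ⟨rfl⟩
  obtain ⟨ν, hν1, hν⟩ := H515.IsLattice.exists_prob (Λ := gp φ Γ) hΓ'
  haveI := hν1
  have htr := fun v hv => H962.tr0 hicc hT hT' v hv
  have hcard : Fintype.card κ ≤ Fintype.card (Multiplicative (ZMod (Fintype.card κ + 1))) := by
    rw [Fintype.card_multiplicative, ZMod.card]
    omega
  obtain ⟨ω, hF, c, hc, hω⟩ := exists_frm (Q := Multiplicative (ZMod (Fintype.card κ + 1))) hT htr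
    hcard
  obtain ⟨j, b, hb, hb0⟩ := ne_pre hi hcφ hfφ hν hT (pf_tri hT') htr hF hc hω C hm hG hM π hπ μ i
  haveI := jm_fin (Γ := Γ) hfφ
  haveI := jm_normal (Γ := Γ) hnφ
  obtain ⟨b', hb', hb0'⟩ := H333.V.smo_over hd (jm φ Γ) (hi i) (hoφ i)
    (κ' := ev (gp φ Γ) i) (fun v => rfl) hF hb hb0 Z
  exact ⟨j, neC_of_smo (QT.H805.f1_of_erg hF (erg_amp hF hE)) ⟨b', hb', hb0'⟩⟩

end gen

end Vale.Agent.P092.VR
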