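import Vale.Agent.P092.QT.Q.Main
import Vale.Agent.P092.VR.QDefs

/-!
P092, project VR: the abstract assembly of project Q (helper157) for places `FacV`.  The blocks of `Q/Defs.lean` imply that the source
representation is monomial.
-/

set_option linter.all false

open MeasureTheory Filter Topology ContinuousLinearMap
open scoped InnerProductSpace ENNReal

namespace Vale.Agent.P092.VR.Q

open Vale.Agent.P092.H160 (Cmm)
open Vale.Agent.P092.QT.H156
open Vale.Agent.P092.QT.H156.Sm (Frm Fd Smo ip)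
open Vale.Agent.P092.QT.H715.Q (Dbl fl F1 TwS)
open Vale.Agent.P092.PA (Lat)
open Vale.Agent.P092.VR (FacV)
open Vale.Agent.P092.QT.Q (Esc Ovl)

variable {Γ X Y K I : Type} [Group Γ] [Countable Γ] [Group X] [Countable X] [Group Y] [Countable Y]
  [NormedAddCommGroup K] [InnerProductSpace ℂ K] [CompleteSpace K] [Fintype I] {G : I → Type}
  [∀ i, Group (G i)] [∀ i, TopologicalSpace (G i)] [∀ i, IsTopologicalGroup (G i)]
  [∀ i, LocallyCompactSpace (G i)] [∀ i, SecondCountableTopology (G i)] [∀ i, T2Space (G i)]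
  [∀ i, MeasurableSpace (G i)] [∀ i, BorelSpace (G i)]

/-- **The abstract theorem of project Q.**  `Γ` is a lattice in the product of the factors `G i`, all
projections are dense; the legs are indexed by `Bool`. -/
theorem Blk.main (B : Blk) {V : Γ →* (K →L[ℂ] K)} {R : Bool → Γ →* (K →L[ℂ] K)}
    {f : Bool → X →* Γ} {ρ : X →* (K →L[ℂ] K)} {f' : Bool → Y →* Γ}
    {ρ' : Bool → Y →* (K →L[ℂ] K)} {ω : K} {ω' : Bool → K} (p : ∀ i, Γ →* G i)
    (μ : ∀ i, Measure (G i)) [∀ i, (μ i).IsHaarMeasure] [∀ i, (μ i).IsMulRightInvariant]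
    (m : Measure (∀ i, G i)) (lat : Lat (MonoidHom.pi p) m)
    (fac : ∀ i, FacV (G i)) (hd : ∀ i, DenseRange (p i)) (he : ∀ i k, i ≠ k → Esc (p i) (p k))
    (h : ∀ l, Dbl V (R l) (f l) ρ (f' l) (ρ' l) ω (ω' l))
    (hR : ∀ g k, R false g * R true k = R true k * R false g)
    (hρ : ∀ x, ∃ n, (∀ l, f l n = 1) ∧ ρ x = R false (f false x) * R true (f true x) * ρ n)
    (hs : ∀ l, Function.Surjective (f l)) (hf : {x | ∀ l, f l x = 1}.Finite)
    (t : ∀ l i j, F1 ((p j).comp (f l)) (p i) ρ V ω (μ j))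
    (t' : ∀ l i j, F1 ((p i).comp (f' l)) (p j) (ρ' l) (R l) (ω' l) (μ i))
    (n : ∀ l i, ∃ j a, Smo ((p j).comp (f l)) (p i) ρ V ω (μ j) a ∧ a ≠ 0)
    (n' : ∀ l j, ∃ i b, Smo ((p i).comp (f' l)) (p j) (ρ' l) (R l) (ω' l) (μ i) b ∧ b ≠ 0) :
    Ovl V ρ := by
  classical
  have hl := fun l => B.base.leg p μ (h l) hd he (t l) (t' l) (n l) (n' l)
  choose σ hσ s using hl
  have hdd : ∀ l j, DenseRange ((p j).comp (f l)) := fun l j => by
    have e : Set.range ((p j).comp (f l)) = Set.range (p j) := by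
      rw [MonoidHom.coe_comp]
      exact (hs l).range_comp _
    rw [DenseRange, e]
    exact hd j
  -- different source places
  have c3 : ∀ (l l' : Bool) (j k : I), σ l j ≠ σ l' k →
      ∀ a b, TwS V (f l) ρ ω (ω' l) (p j) (p (σ l j)) (μ j) (μ (σ l j)) a →
        TwS V (f l') ρ ω (ω' l') (p k) (p (σ l' k)) (μ k) (μ (σ l' k)) b → ∀ x y, a x * b y = b y * a x := by
    intro l l' j k hne a b ha hb
    refine B.c3 Γ X Y K (G j) (G k) (G (σ l j)) (G (σ l' k)) (∀ i, G i) V (R l) (f l) ρ (f' l)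
      (ρ' l) ω (ω' l) (p j) (p (σ l j)) (p (σ l' k)) ((p k).comp (f l')) (MonoidHom.pi p)
      (Pi.evalMonoidHom G (σ l j)) (Pi.evalMonoidHom G (σ l' k)) (μ j) (μ k) (μ (σ l j)) m (h l)
      (hd _) (hd _) (hd _) (hdd _ _) (fac _) (fac _) (continuous_apply _) (continuous_apply _)
      (fun e => ⟨Function.update 1 (σ l j) e, ?_, ?_⟩) (fun g => rfl) (fun g => rfl) lat
      (t l _ _) (t' l _ _) (t l' _ _) (s l j) a b ha hb.smo
    · simp
    · simp [Function.update_of_ne hne.symm]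
  have c : ∀ (l l' : Bool) (j k : I),
      ∀ a b, TwS V (f l) ρ ω (ω' l) (p j) (p (σ l j)) (μ j) (μ (σ l j)) a →
        TwS V (f l') ρ ω (ω' l') (p k) (p (σ l' k)) (μ k) (μ (σ l' k)) b → ∀ x y, a x * b y = b y * a x := by
    intro l l' j k a b ha hb
    by_cases hne : σ l j = σ l' k
    · by_cases hl : l = l'
      · subst hl
        have hjk : j = k := hσ l hne
        subst hjk
        exact B.c1 Γ X Y K (G j) (G (σ l j)) V (R l) (f l) ρ (f' l) (ρ' l) ω (ω' l) (p j) (p (σ l j)) (μ j)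
          (μ (σ l j)) (h l) (hd _) (hd _) (fac _) (fac _) (t l _ _) (t' l _ _) (s l j) a b ha hb
      · have hs' := s l' k
        have t1 := t l' (σ l' k) k
        have t2 := t' l' (σ l' k) k
        rw [← hne] at hb hs' t1 t2
        have hρ' : ∀ x, ∃ n, f l n = 1 ∧ f l' n = 1 ∧ ρ x = R l (f l x) * R l' (f l' x) * ρ n := by
          intro x
          obtain ⟨n, hn, e⟩ := hρ x
          refine ⟨n, hn l, hn l', ?_⟩
          rw [e]
          cases l <;> cases l'
          · exact absurd rfl hl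
          · rfl
          · rw [hR]
          · exact absurd rfl hl
        have hR' : ∀ g k, R l g * R l' k = R l' k * R l g := by
          intro g k
          cases l <;> cases l'
          · exact absurd rfl hl
          · exact hR _ _
          · exact (hR _ _).symm
          · exact absurd rfl hl
        exact B.c2 Γ X Y Y K (G j) (G k) (G (σ l j)) V (R l) (R l') (f l) (f l') ρ (f' l) (ρ' l)
          (f' l') (ρ' l') ω (ω' l) (ω' l') (p j) (p k) (p (σ l j)) (μ j) (μ k) (μ (σ l j)) (h l) (h l') hR' hρ'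
          (hd _) (hd _) (hd _) (fac _) (fac _) (fac _) (t l _ _) (t' l _ _) t1 t2 (s l j) hs'
          a b ha hb
    · exact c3 l l' j k hne a b ha hb
  refine B.base.fin Γ X K (Bool × I) (fun j => G j.2) ρ V ω (fun j => (p j.2).comp (f j.1))
    (fun j => μ j.2)
    (fun j => {a | TwS V (f j.1) ρ ω (ω' j.1) (p j.2) (p (σ j.1 j.2)) (μ j.2) (μ (σ j.1 j.2)) a})
    (h false).fr (fun j => hdd _ _) (fun j a ha => ha.smo.toFd)
    (fun j a ha => (B.base.alg Γ X Y K _ _ V (R j.1) (f j.1) ρ (f' j.1) (ρ' j.1) ω (ω' j.1) _ _ _ _ (h j.1)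
      (hd _) (hd _) a ha).1)
    (fun j a ha y => (B.base.alg Γ X Y K _ _ V (R j.1) (f j.1) ρ (f' j.1) (ρ' j.1) ω (ω' j.1) _ _ _ _ (h j.1)
      (hd _) (hd _) a ha).2.1 y)
    (fun j a ha g => (B.base.alg Γ X Y K _ _ V (R j.1) (f j.1) ρ (f' j.1) (ρ' j.1) ω (ω' j.1) _ _ _ _ (h j.1)
      (hd _) (hd _) a ha).2.2 g)
    (fun j a ha b hb ζ η => t j.1 _ _ a b ha.smo hb.smo ζ η)
    (fun j => s j.1 j.2)
    (fun j k a ha b hb x y => c j.1 k.1 j.2 k.2 a b ha hb x y)
    (fun j ξ hξ => B.gal Γ X Y K _ _ V (R j.1) (f j.1) ρ (f' j.1) (ρ' j.1) ω (ω' j.1) _ _ _ _ (h j.1)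
      (hd _) (hd _) (fac _) (fac _) (t _ _ _) (t' _ _ _) (s j.1 j.2) ξ hξ) ?_
  · intro C hC
    have h1 : ∀ l, {g : Γ | ∀ i, p i g ∈ C (l, i)}.Finite := fun l => by
      have h2 := lat.fin (Set.pi Set.univ fun i => C (l, i)) (isCompact_univ_pi fun i => hC (l, i))
      refine h2.subset fun g hg => ?_
      exact fun i _ => hg i
    have h2 : ∀ q : Γ × Γ, ((fun x : X => (f false x, f true x)) ⁻¹' {q}).Finite := by
      intro q
      by_cases hq : ∃ x0 : X, (f false x0, f true x0) = q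
      · obtain ⟨x0, rfl⟩ := hq
        refine (hf.image fun n => x0 * n).subset fun x hx => ?_
        have hx' : (f false x, f true x) = (f false x0, f true x0) := hx
        refine ⟨x0⁻¹ * x, fun l => ?_, mul_inv_cancel_left _ _⟩
        rw [map_mul, map_inv, inv_mul_eq_one]
        cases l
        · exact (congrArg Prod.fst hx').symm
        · exact (congrArg Prod.snd hx').symm
      · refine Set.finite_empty.subset fun x hx => ?_
        exact hq ⟨x, hx⟩
    refine (((h1 false).prod (h1 true)).preimage' fun q _ => h2 q).subset fun x hx => ?_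
    exact ⟨fun i => hx (false, i), fun i => hx (true, i)⟩

end Vale.Agent.P092.VR.Q
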